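import Mathlib.Data.Nat.Bitwise
import Mathlib.Data.Nat.Log
import Mathlib.Tactic.Common
import Mathlib.Tactic.Linarith

/-! A small checker for unit propagation proofs about families of subsets of ten colours,
coded as bit masks. -/

namespace Vale.Agent.P052

def pc (s : ℕ) : ℕ := ((List.range 10).filter fun i => s.testBit i).length

structure HypM (B : ℕ → Prop) : Prop where
  small : ∀ s, pc s ≤ 2 → B s
  large : ∀ s, 5 ≤ pc s → ¬ B s
  down : ∀ s t, t &&& s = t → B s → B t
  cover : ∀ a b c, a ||| b ||| c = 1023 → B a → B b → B c → False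
  W : ∀ t I J, t ≠ 0 → J ≠ 0 → t ||| I ||| J = 1023 → t &&& I = 0 → t &&& J = 0 → I &&& J = 0 →
    B t → B J ∨ ∃ w < 1024, w &&& I = w ∧ B (t ||| w) ∧ B (I ^^^ w)
  G : ∀ t I J, t ≠ 0 → I ≠ 0 → J ≠ 0 → t ||| I ||| J = 1023 → t &&& I = 0 → t &&& J = 0 →
    I &&& J = 0 → B (t ||| J) → ∃ w < 1024, w ≠ 0 ∧ w &&& I = w ∧ B (t ||| w)
  P : ∀ t I, pc t = 3 → t ||| I = 1023 → t &&& I = 0 → B t →
    ∃ w < 1024, w ≠ 0 ∧ w &&& I = w ∧ B (t ||| w)
  u1 : B 15
  u2 : B 23

def Cl (B : ℕ → Prop) (c : ℕ × ℕ) : Prop :=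
  (∃ v, c.1.testBit v = true ∧ B v) ∨ ∃ v, c.2.testBit v = true ∧ ¬ B v

def mkMask (l : List ℕ) : ℕ := l.foldr (fun v acc => acc ||| 2 ^ v) 0

def rup (db : List (ℕ × ℕ)) : List ℕ → ℕ → ℕ → Bool
  | [], _, _ => false
  | k :: ks, T, F =>
    let c := db.getD k (1, 1)
    let rp := c.1 ^^^ (c.1 &&& F)
    let rn := c.2 ^^^ (c.2 &&& T)
    if rn = 0 then
      (if rp = 0 then true else (rp == 2 ^ rp.log2 && rup db ks (T ||| rp) F))
    else (rp == 0 && rn == 2 ^ rn.log2 && rup db ks T (F ||| rn))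

theorem rup_sound {B : ℕ → Prop} {db : List (ℕ × ℕ)} (hdb : ∀ c ∈ db, Cl B c) :
    ∀ (ks : List ℕ) (T F : ℕ), rup db ks T F = true → (∀ v, T.testBit v = true → B v) →
      (∀ v, F.testBit v = true → ¬ B v) → False := by
  intro ks
  induction ks with
  | nil => intro T F h; simp [rup] at h
  | cons k ks ih =>
    intro T F h hT hF
    have hc : Cl B (db.getD k (1, 1)) := by
      by_cases hk : k < db.length
      · rw [List.getD_eq_getElem _ _ hk]
        exact hdb _ (List.getElem_mem hk)
      · rw [List.getD_eq_default _ _ (not_lt.1 hk)]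
        by_cases h0 : B 0
        · exact Or.inl ⟨0, by decide, h0⟩
        · exact Or.inr ⟨0, by decide, h0⟩
    simp only [rup] at h
    generalize db.getD k (1, 1) = c at h hc
    have key : (∃ v, (c.1 ^^^ (c.1 &&& F)).testBit v = true ∧ B v) ∨
        ∃ v, (c.2 ^^^ (c.2 &&& T)).testBit v = true ∧ ¬ B v := by
      rcases hc with ⟨v, hv, hB⟩ | ⟨v, hv, hB⟩
      · refine Or.inl ⟨v, ?_, hB⟩
        have : F.testBit v = false := by
          by_contra h'
          exact hF v (by simpa using h') hB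
        simp [hv, this]
      · refine Or.inr ⟨v, ?_, hB⟩
        have : T.testBit v = false := by
          by_contra h'
          exact hB (hT v (by simpa using h'))
        simp [hv, this]
    generalize c.1 ^^^ (c.1 &&& F) = rp at h key
    generalize c.2 ^^^ (c.2 &&& T) = rn at h key
    split_ifs at h with h1 h2
    · subst h1 h2
      simp at key
    · subst h1
      simp only [Bool.and_eq_true, beq_iff_eq] at h
      refine ih _ _ h.2 ?_ hF
      intro v hv
      rw [Nat.testBit_or, Bool.or_eq_true] at hv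
      rcases hv with hv | hv
      · exact hT v hv
      · rcases key with ⟨u, hu, hB⟩ | ⟨u, hu, _⟩
        · rw [h.1, Nat.testBit_two_pow] at hu hv
          simp only [decide_eq_true_eq] at hu hv
          rw [← hv, hu]; exact hB
        · simp at hu
    · simp only [Bool.and_eq_true, beq_iff_eq] at h
      obtain ⟨⟨h2, h3⟩, h4⟩ := h
      subst h2
      refine ih _ _ h4 hT ?_
      intro v hv
      rw [Nat.testBit_or, Bool.or_eq_true] at hv
      rcases hv with hv | hv
      · exact hF v hv
      · rcases key with ⟨u, hu, _⟩ | ⟨u, hu, hB⟩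
        · simp at hu
        · rw [h3, Nat.testBit_two_pow] at hu hv
          simp only [decide_eq_true_eq] at hu hv
          rw [← hv, hu]; exact hB

def subs (b : ℕ) : ℕ → List ℕ
  | 0 => [0]
  | k + 1 => if b.testBit k then subs b k ++ (subs b k).map (fun w => w + 2 ^ k) else subs b k

theorem mem_subs (b : ℕ) : ∀ k w, w < 2 ^ k → w &&& b = w → w ∈ subs b k := by
  intro k
  induction k with
  | zero => intro w hw _; simp at hw; simp [subs, hw]
  | succ k ih =>
    intro w hw hb
    by_cases h : w < 2 ^ k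
    · have := ih w h hb
      simp only [subs]
      split_ifs
      · exact List.mem_append_left _ this
      · exact this
    · obtain ⟨u, rfl⟩ := Nat.exists_eq_add_of_le (not_lt.1 h)
      have hu : u < 2 ^ k := by rw [pow_succ] at hw; omega
      have hk : (2 ^ k + u).testBit k = true := by
        rw [Nat.testBit_two_pow_add_eq, Nat.testBit_lt_two_pow hu]; rfl
      have hbk : b.testBit k = true := by
        have := congrArg (fun x => Nat.testBit x k) hb
        simpa [hk] using this
      have hub : u &&& b = u := by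
        apply Nat.eq_of_testBit_eq
        intro i
        by_cases hi : i < k
        · have := congrArg (fun x => Nat.testBit x i) hb
          simpa [Nat.testBit_two_pow_add_gt hi] using this
        · have : u.testBit i = false :=
            Nat.testBit_lt_two_pow (hu.trans_le (Nat.pow_le_pow_right (by norm_num) (not_lt.1 hi)))
          simp [this]
      simp only [subs, hbk, if_true]
      exact List.mem_append_right _ (List.mem_map.2 ⟨u, ih u hu hub, Nat.add_comm _ _⟩)

def posOk (p s : ℕ) : Bool := p.testBit s || decide (5 ≤ pc s) ||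
  (List.range 10).any fun i => ((s ^^^ 2 ^ i) &&& s == s ^^^ 2 ^ i) && p.testBit (s ^^^ 2 ^ i)

def negOk (n s : ℕ) : Bool := n.testBit s || decide (pc s ≤ 2)

def okStep (db : List (ℕ × ℕ)) (tag a b c p n : ℕ) (h : List ℕ) : Bool :=
  match tag with
  | 0 => rup db h n p
  | 1 => (b &&& a == b) && n.testBit a && p.testBit b
  | 2 => (a ||| b ||| c == 1023) && negOk n a && negOk n b && negOk n c
  | 3 => a != 0 && c != 0 && (a ||| b ||| c == 1023) && (a &&& b == 0) && (a &&& c == 0) &&
      (b &&& c == 0) && negOk n a && posOk p c &&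
      (subs b 10).all fun w => posOk p (a ||| w) || posOk p (b ^^^ w)
  | 4 => a != 0 && b != 0 && c != 0 && (a ||| b ||| c == 1023) && (a &&& b == 0) &&
      (a &&& c == 0) && (b &&& c == 0) && n.testBit (a ||| c) &&
      (subs b 10).all fun w => w == 0 || posOk p (a ||| w)
  | 5 => (pc a == 3) && (a ||| b == 1023) && (a &&& b == 0) && n.testBit a &&
      (subs b 10).all fun w => w == 0 || posOk p (a ||| w)
  | _ => p.testBit 15 || p.testBit 23

theorem posOk_sound {B : ℕ → Prop} (H : HypM B) {p n s : ℕ} (h : posOk p s = true) (hs : B s) :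
    Cl B (p, n) := by
  simp only [posOk, Bool.or_eq_true, decide_eq_true_eq, List.any_eq_true, Bool.and_eq_true,
    beq_iff_eq] at h
  rcases h with (h | h) | ⟨i, -, h1, h2⟩
  · exact Or.inl ⟨s, h, hs⟩
  · exact (H.large s h hs).elim
  · exact Or.inl ⟨_, h2, H.down s _ h1 hs⟩

theorem negOk_sound {B : ℕ → Prop} (H : HypM B) {p n s : ℕ} (h : negOk n s = true) (hs : ¬ B s) :
    Cl B (p, n) := by
  simp only [negOk, Bool.or_eq_true, decide_eq_true_eq] at h
  rcases h with h | h
  · exact Or.inr ⟨s, h, hs⟩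
  · exact (hs (H.small s h)).elim

theorem okStep_sound {B : ℕ → Prop} (H : HypM B) {db : List (ℕ × ℕ)} (hdb : ∀ c ∈ db, Cl B c)
    {tag a b c p n : ℕ} {h : List ℕ} (hok : okStep db tag a b c p n h = true) : Cl B (p, n) := by
  unfold okStep at hok
  split at hok
  · by_contra hc
    simp only [Cl, not_or, not_exists, not_and, not_not] at hc
    exact rup_sound hdb h n p hok hc.2 hc.1
  · simp only [Bool.and_eq_true, beq_iff_eq] at hok
    by_cases ha : B a
    · exact Or.inl ⟨b, hok.2, H.down a b hok.1.1 ha⟩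
    · exact Or.inr ⟨a, hok.1.2, ha⟩
  · simp only [Bool.and_eq_true, beq_iff_eq] at hok
    obtain ⟨⟨⟨h1, h2⟩, h3⟩, h4⟩ := hok
    by_cases ha : B a
    · by_cases hb : B b
      · exact negOk_sound H h4 (H.cover a b c h1 ha hb)
      · exact negOk_sound H h3 hb
    · exact negOk_sound H h2 ha
  · simp only [Bool.and_eq_true, beq_iff_eq, bne_iff_ne, List.all_eq_true,
      Bool.or_eq_true] at hok
    obtain ⟨⟨⟨⟨⟨⟨⟨⟨h1, h2⟩, h3⟩, h4⟩, h5⟩, h6⟩, h7⟩, h8⟩, h9⟩ := hok
    by_cases ha : B a
    · rcases H.W a b c h1 h2 h3 h4 h5 h6 ha with hJ | ⟨w, hw, hs, h10, h11⟩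
      · exact posOk_sound H h8 hJ
      · rcases h9 w (mem_subs b 10 w hw hs) with h' | h'
        · exact posOk_sound H h' h10
        · exact posOk_sound H h' h11
    · exact negOk_sound H h7 ha
  · simp only [Bool.and_eq_true, beq_iff_eq, bne_iff_ne, List.all_eq_true,
      Bool.or_eq_true] at hok
    obtain ⟨⟨⟨⟨⟨⟨⟨⟨h1, h2⟩, h2'⟩, h3⟩, h4⟩, h5⟩, h6⟩, h7⟩, h9⟩ := hok
    by_cases ha : B (a ||| c)
    · obtain ⟨w, hw, h0, hs, h10⟩ := H.G a b c h1 h2 h2' h3 h4 h5 h6 ha
      rcases h9 w (mem_subs b 10 w hw hs) with h' | h'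
      · exact (h0 h').elim
      · exact posOk_sound H h' h10
    · exact Or.inr ⟨_, h7, ha⟩
  · simp only [Bool.and_eq_true, beq_iff_eq, bne_iff_ne, List.all_eq_true,
      Bool.or_eq_true] at hok
    obtain ⟨⟨⟨⟨h1, h2⟩, h3⟩, h7⟩, h9⟩ := hok
    by_cases ha : B a
    · obtain ⟨w, hw, h0, hs, h10⟩ := H.P a b h1 h2 h3 ha
      rcases h9 w (mem_subs b 10 w hw hs) with h' | h'
      · exact (h0 h').elim
      · exact posOk_sound H h' h10
    · exact Or.inr ⟨_, h7, ha⟩
  · simp only [Bool.or_eq_true] at hok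
    rcases hok with h' | h'
    · exact Or.inl ⟨_, h', H.u1⟩
    · exact Or.inl ⟨_, h', H.u2⟩

abbrev Step := ℕ × ℕ × ℕ × ℕ × List ℕ × List ℕ × List ℕ

def check : List Step → List (ℕ × ℕ) → Bool
  | [], _ => false
  | (tag, a, b, c, pl, nl, h) :: ss, db =>
    okStep db tag a b c (mkMask pl) (mkMask nl) h &&
      ((mkMask pl == 0 && mkMask nl == 0) || check ss ((mkMask pl, mkMask nl) :: db))

theorem check_sound {B : ℕ → Prop} (H : HypM B) : ∀ (ss : List Step) (db : List (ℕ × ℕ)),
    (∀ c ∈ db, Cl B c) → check ss db = true → False := by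
  intro ss
  induction ss with
  | nil => intro db _ h; simp [check] at h
  | cons s ss ih =>
    obtain ⟨tag, a, b, c, pl, nl, h⟩ := s
    intro db hdb hc
    simp only [check, Bool.and_eq_true, Bool.or_eq_true, beq_iff_eq] at hc
    have hcl := okStep_sound H hdb hc.1
    rcases hc.2 with h0 | h0
    · rw [h0.1, h0.2] at hcl
      rcases hcl with ⟨v, hv, _⟩ | ⟨v, hv, _⟩ <;> simp at hv
    · refine ih _ ?_ h0
      intro d hd
      rcases List.mem_cons.1 hd with rfl | hd
      · exact hcl
      · exact hdb d hd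

end Vale.Agent.P052
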