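import Vale.Agent.P052.PosPart
import Vale.Agent.Lib.Degree.Borsuk

/-! Colour functions on real projective three space and the odd map on symmetric matrices. -/

open Matrix Filter Topology Set

namespace Vale.Agent.P052

abbrev V4 := Fin 4 → ℝ
abbrev E10 := Fin 10 → ℝ

structure Cover (g : Fin 10 → V4 → ℝ) : Prop where
  cont : ∀ i, Continuous (g i)
  nonneg : ∀ i v, 0 ≤ g i v
  zero : ∀ i, g i 0 = 0
  smul : ∀ i v (c : ℝ), c ≠ 0 → 0 < g i v → 0 < g i (c • v)
  cov : ∀ v, v ≠ 0 → ∃ i, 0 < g i v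
  quant : ∃ C : ℝ, ∀ i v w, 0 < g i v → 0 < g i w → (v ⬝ᵥ v) * (w ⬝ᵥ w) ≤ C * (v ⬝ᵥ w) ^ 2

variable {g : Fin 10 → V4 → ℝ}

theorem dot_self_pos {v : V4} (h : v ≠ 0) : 0 < v ⬝ᵥ v :=
  Vale.Agent.Lib.Degree.sum_sq_pos h

theorem Cover.ne_zero (H : Cover g) {i : Fin 10} {v : V4} (h : 0 < g i v) : v ≠ 0 := by
  rintro rfl
  rw [H.zero] at h
  exact lt_irrefl _ h

theorem Cover.orth (H : Cover g) {i : Fin 10} {v w : V4} (hv : 0 < g i v) (hw : 0 < g i w)
    (h : v ⬝ᵥ w = 0) : False := by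
  obtain ⟨C, hC⟩ := H.quant
  have := hC i v w hv hw
  rw [h] at this
  have h1 := mul_pos (dot_self_pos (H.ne_zero hv)) (dot_self_pos (H.ne_zero hw))
  simp at this
  linarith

noncomputable def GG (g : Fin 10 → V4 → ℝ) (i : Fin 10) (P : M4) : ℝ :=
  sSup ((fun z => g i (P *ᵥ z)) '' Metric.closedBall (0 : V4) 1)

theorem Cover.continuous_GG (H : Cover g) (i : Fin 10) : Continuous (GG g i) := by
  refine (isCompact_closedBall (0 : V4) 1).continuous_sSup (f := fun P z => g i (P *ᵥ z)) ?_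
  exact (H.cont i).comp (continuous_fst.matrix_mulVec continuous_snd)

theorem Cover.GG_nonneg (H : Cover g) (i : Fin 10) (P : M4) : 0 ≤ GG g i P :=
  Real.sSup_nonneg (by rintro _ ⟨z, -, rfl⟩; exact H.nonneg _ _)

theorem Cover.GG_pos (H : Cover g) {i : Fin 10} {P : M4} :
    0 < GG g i P ↔ ∃ z, 0 < g i (P *ᵥ z) := by
  constructor
  · intro h
    by_contra hc
    push Not at hc
    have : GG g i P ≤ 0 := Real.sSup_nonpos (by rintro _ ⟨z, -, rfl⟩; exact hc z)
    linarith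
  · rintro ⟨z, hz⟩
    have hb : BddAbove ((fun z => g i (P *ᵥ z)) '' Metric.closedBall (0 : V4) 1) :=
      (isCompact_closedBall (0 : V4) 1).bddAbove_image
        ((H.cont i).comp (continuous_const.matrix_mulVec continuous_id)).continuousOn
    have hc : (0 : ℝ) < ‖z‖ + 1 := by positivity
    refine lt_of_lt_of_le (H.smul i _ (‖z‖ + 1)⁻¹ (by positivity) hz)
      (le_csSup hb ⟨(‖z‖ + 1)⁻¹ • z, ?_, by simp [mulVec_smul]⟩)
    rw [mem_closedBall_zero_iff, norm_smul, Real.norm_eq_abs, abs_of_pos (by positivity),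
      inv_mul_le_iff₀ hc]
    linarith

theorem Cover.GG_zero (H : Cover g) (i : Fin 10) : GG g i 0 = 0 := by
  refine le_antisymm (not_lt.1 fun h => ?_) (H.GG_nonneg i 0)
  obtain ⟨z, hz⟩ := H.GG_pos.1 h
  exact H.ne_zero hz (by simp)

theorem Cover.eq_zero_of_GG (H : Cover g) {P : M4} (h : ∀ i, ¬ 0 < GG g i P) : P = 0 := by
  by_contra hP
  have : ∃ z, P *ᵥ z ≠ 0 := by
    by_contra hc
    push Not at hc
    apply hP
    ext i j
    have := congrFun (hc (Pi.single j 1)) i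
    simpa using this
  obtain ⟨z, hz⟩ := this
  obtain ⟨i, hi⟩ := H.cov _ hz
  exact h i (H.GG_pos.2 ⟨z, hi⟩)

theorem Cover.GG_disj (H : Cover g) {P Q : M4} (hP : P.PosSemidef) (h : P * Q = 0) {i : Fin 10}
    (h1 : 0 < GG g i P) (h2 : 0 < GG g i Q) : False := by
  obtain ⟨z, hz⟩ := H.GG_pos.1 h1
  obtain ⟨w, hw⟩ := H.GG_pos.1 h2
  exact H.orth hz hw (dot_eq_zero hP h z w)

theorem Cover.GG_eq_zero (H : Cover g) {P : M4} (hP : P.PosSemidef) {v : V4} (h : P *ᵥ v = 0)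
    {i : Fin 10} (hv : 0 < g i v) : GG g i P = 0 := by
  refine le_antisymm (not_lt.1 fun h1 => ?_) (H.GG_nonneg i P)
  obtain ⟨z, hz⟩ := H.GG_pos.1 h1
  exact H.orth hz hv (by rw [dot_symm hP, h, dotProduct_zero])

def mat (a : E10) : M4 :=
  !![a 0, a 1, a 2, a 3; a 1, a 4, a 5, a 6; a 2, a 5, a 7, a 8; a 3, a 6, a 8, a 9]

theorem mat_herm (a : E10) : (mat a).IsHermitian := by
  ext i j
  fin_cases i <;> fin_cases j <;> simp [mat]

theorem continuous_mat : Continuous mat := by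
  refine continuous_matrix fun i j => ?_
  fin_cases i <;> fin_cases j <;> simp [mat] <;> fun_prop

theorem mat_neg (a : E10) : mat (-a) = -mat a := by
  ext i j
  fin_cases i <;> fin_cases j <;> simp [mat]

theorem mat_add (a b : E10) : mat (a + b) = mat a + mat b := by
  ext i j
  fin_cases i <;> fin_cases j <;> simp [mat]

theorem mat_inj {a b : E10} (h : mat a = mat b) : a = b := by
  have e := fun i j => congrFun (congrFun h i) j
  ext k
  fin_cases k
  · simpa [mat] using e 0 0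
  · simpa [mat] using e 0 1
  · simpa [mat] using e 0 2
  · simpa [mat] using e 0 3
  · simpa [mat] using e 1 1
  · simpa [mat] using e 1 2
  · simpa [mat] using e 1 3
  · simpa [mat] using e 2 2
  · simpa [mat] using e 2 3
  · simpa [mat] using e 3 3

theorem mat_zero : mat 0 = 0 := by
  ext i j
  fin_cases i <;> fin_cases j <;> simp [mat]

theorem ip_mat_le (a : E10) : ip (mat a) (mat a) ≤ 16 * ‖a‖ ^ 2 := by
  have h : ∀ k, a k * a k ≤ ‖a‖ ^ 2 := fun k => by
    have := norm_le_pi_norm a k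
    rw [Real.norm_eq_abs] at this
    nlinarith [abs_nonneg (a k), abs_mul_abs_self (a k)]
  simp only [ip, mat, Fin.sum_univ_four]
  simp
  linarith [h 0, h 1, h 2, h 3, h 4, h 5, h 6, h 7, h 8, h 9]

noncomputable def pp (a : E10) : M4 := pos (mat a)

theorem continuous_pp : Continuous pp := continuous_pos continuous_mat mat_herm

theorem pp_psd (a : E10) : (pp a).PosSemidef := (pos_spec (mat_herm a)).1

theorem pp_neg (a : E10) : pp (-a) = pp a - mat a := by
  rw [pp, mat_neg, pos_neg (mat_herm a), pp]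

theorem pp_mul (a : E10) : pp a * pp (-a) = 0 := by
  rw [pp_neg]; exact (pos_spec (mat_herm a)).2.2

theorem pp_mulVec {a : E10} {v : V4} (h : mat a *ᵥ v = 0) : pp a *ᵥ v = 0 :=
  pos_mulVec_eq_zero (mat_herm a) h

theorem pp_neg_mulVec {a : E10} {v : V4} (h : mat a *ᵥ v = 0) : pp (-a) *ᵥ v = 0 :=
  pp_mulVec (by rw [mat_neg, neg_mulVec, h, neg_zero])

noncomputable def FF (g : Fin 10 → V4 → ℝ) (a : E10) : E10 :=
  fun i => GG g i (pp a) - GG g i (pp (-a))

theorem Cover.continuous_FF (H : Cover g) : Continuous (FF g) :=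
  continuous_pi fun i => ((H.continuous_GG i).comp continuous_pp).sub
    ((H.continuous_GG i).comp (continuous_pp.comp continuous_neg))

theorem FF_neg (a : E10) : FF g (-a) = -FF g a := by
  ext i
  simp [FF]

theorem Cover.FF_pos (H : Cover g) {a : E10} {i : Fin 10} :
    0 < FF g a i ↔ 0 < GG g i (pp a) := by
  have h1 := H.GG_nonneg i (pp a)
  have h2 := H.GG_nonneg i (pp (-a))
  constructor
  · intro h; unfold FF at h; linarith
  · intro h
    have : ¬ 0 < GG g i (pp (-a)) := H.GG_disj (pp_psd a) (pp_mul a) h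
    unfold FF; linarith

theorem Cover.FF_neg' (H : Cover g) {a : E10} {i : Fin 10} :
    FF g a i < 0 ↔ 0 < GG g i (pp (-a)) := by
  rw [← H.FF_pos, FF_neg]
  simp

theorem Cover.eq_zero_of_FF (H : Cover g) {a : E10} (h : FF g a = 0) : a = 0 := by
  have h1 : pp a = 0 := H.eq_zero_of_GG fun i hi => by
    have := H.FF_pos.2 hi
    rw [h] at this
    exact lt_irrefl _ this
  have h2 : pp (-a) = 0 := H.eq_zero_of_GG fun i hi => by
    have := H.FF_neg'.2 hi
    rw [h] at this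
    exact lt_irrefl _ this
  rw [pp_neg, h1, zero_sub, neg_eq_zero, ← mat_zero] at h2
  exact mat_inj h2

open Vale.Agent.Lib.Degree in
theorem Cover.oddDeg_FF (H : Cover g) {r : ℝ} (hr : 0 < r) {y : E10}
    (hy : ∀ a : E10, ‖a‖ = r → ‖y‖ < ‖FF g a‖) :
    OddDeg (fun a => FF g a - y) (Metric.ball 0 r) := by
  obtain ⟨k, hk, e⟩ := borsuk H.continuous_FF FF_neg hr (fun x hx h0 => by
    have := hy x hx
    rw [h0, norm_zero] at this
    exact absurd this (not_lt.2 (norm_nonneg _)))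
  refine ⟨k, hk, ?_⟩
  rw [← e]
  refine (deg_rouche H.continuous_FF (H.continuous_FF.sub continuous_const) Metric.isOpen_ball
    Metric.isBounded_ball fun x hx => ?_).symm
  rw [frontier_ball _ hr.ne', mem_sphere_zero_iff_norm] at hx
  simpa using hy x hx

theorem Cover.exists_lb (H : Cover g) {r : ℝ} (hr : 0 < r) (R : ℝ) :
    ∃ c > (0 : ℝ), ∀ a : E10, r ≤ ‖a‖ → ‖a‖ ≤ R → c ≤ ‖FF g a‖ := by
  have hK : IsCompact (Metric.closedBall (0 : E10) R ∩ {a | r ≤ ‖a‖}) :=
    (isCompact_closedBall _ _).inter_right (isClosed_le continuous_const continuous_norm)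
  obtain ⟨c, hc, h⟩ := hK.exists_forall_le' (f := fun a => ‖FF g a‖) (a := 0)
    H.continuous_FF.norm.continuousOn (fun a ha => norm_pos_iff.2 fun h0 => by
      have := ha.2
      rw [H.eq_zero_of_FF h0] at this
      simp at this
      linarith)
  exact ⟨c, hc, fun a h1 h2 => h a ⟨by simpa using h2, h1⟩⟩

theorem Cover.exists_pattern (H : Cover g) (t : Finset (Fin 10)) :
    ∃ a : E10, ∀ i, (i ∈ t → 0 < FF g a i) ∧ (i ∉ t → FF g a i < 0) := by
  obtain ⟨c, hc, h⟩ := H.exists_lb one_pos 1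
  let y : E10 := fun i => if i ∈ t then c / 2 else -(c / 2)
  have hy : ‖y‖ < c := by
    refine lt_of_le_of_lt ((pi_norm_le_iff_of_nonneg (half_pos hc).le).2 fun i => ?_)
      (half_lt_self hc)
    simp only [y]
    split_ifs <;> simp [abs_of_pos hc]
  have hodd := H.oddDeg_FF one_pos (y := y) fun a ha => hy.trans_le (h a ha.ge ha.le)
  obtain ⟨a, -, ha⟩ := Vale.Agent.Lib.Degree.exists_zero_of_deg_ne_zero
    (H.continuous_FF.sub continuous_const) Metric.isOpen_ball Metric.isBounded_ball hodd.ne_zero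
  refine ⟨a, fun i => ?_⟩
  have : FF g a i = y i := congrFun (sub_eq_zero.1 ha) i
  rw [this]
  constructor <;> intro hi <;> simp [y, hi, hc]

/-- The nerve of the cover. -/
def Nerve (g : Fin 10 → V4 → ℝ) (t : Finset (Fin 10)) : Prop := ∃ x : V4, x ≠ 0 ∧ ∀ i ∈ t, 0 < g i x

theorem Cover.nerve_pair (H : Cover g) (i j : Fin 10) : Nerve g {i, j} := by
  obtain ⟨a, ha⟩ := H.exists_pattern {i, j}
  obtain ⟨z1, h1⟩ := H.GG_pos.1 (H.FF_pos.1 ((ha i).1 (by simp)))
  obtain ⟨z2, h2⟩ := H.GG_pos.1 (H.FF_pos.1 ((ha j).1 (by simp)))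
  by_contra hn
  have hboth : ∀ x, 0 < g i x → 0 < g j x → False := fun x hi hj =>
    hn ⟨x, H.ne_zero hi, by simp [hi, hj]⟩
  let p : ℝ → V4 := fun τ => pp a *ᵥ ((1 - τ) • z1 + τ • z2)
  have hp : Continuous p := continuous_const.matrix_mulVec (by fun_prop)
  have hc : Continuous fun τ => g j (p τ) - g i (p τ) :=
    ((H.cont j).comp hp).sub ((H.cont i).comp hp)
  have p0 : p 0 = pp a *ᵥ z1 := by simp [p]
  have p1 : p 1 = pp a *ᵥ z2 := by simp [p]
  have e0 : g j (p 0) - g i (p 0) ≤ 0 := by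
    rw [p0]
    have := not_lt.1 (hboth _ h1)
    linarith
  have e1 : 0 ≤ g j (p 1) - g i (p 1) := by
    rw [p1]
    have : g i (pp a *ᵥ z2) ≤ 0 := not_lt.1 fun h => hboth _ h h2
    linarith
  obtain ⟨τ, -, hτ⟩ := intermediate_value_Icc zero_le_one hc.continuousOn ⟨e0, e1⟩
  simp only at hτ
  by_cases h0 : p τ = 0
  · have hs : (1 - τ) • (pp a *ᵥ z1) + τ • (pp a *ᵥ z2) = 0 := by
      simpa [p, mulVec_add, mulVec_smul] using h0
    by_cases ht0 : τ = 0
    · rw [ht0] at h0; exact H.ne_zero h1 (p0 ▸ h0)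
    by_cases ht1 : 1 - τ = 0
    · rw [← sub_eq_zero.1 ht1] at h0; exact H.ne_zero h2 (p1 ▸ h0)
    have := H.smul i _ (-(1 - τ) / τ) (div_ne_zero (neg_ne_zero.2 ht1) ht0) h1
    refine hboth _ ?_ h2
    convert this using 2
    ext k
    have := congrFun hs k
    simp only [Pi.add_apply, Pi.smul_apply, smul_eq_mul, Pi.zero_apply] at this ⊢
    field_simp
    linarith
  · obtain ⟨k, hk⟩ := H.cov _ h0
    have hk' : k ∈ ({i, j} : Finset (Fin 10)) := by
      by_contra hc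
      have h3 := (ha k).2 hc
      have h4 := H.FF_pos.2 (H.GG_pos.2 ⟨_, hk⟩)
      linarith
    have e : g j (p τ) = g i (p τ) := sub_eq_zero.1 hτ
    rcases Finset.mem_insert.1 hk' with rfl | hk'
    · exact hboth _ hk (e ▸ hk)
    · rw [Finset.mem_singleton.1 hk'] at hk
      exact hboth _ (e ▸ hk) hk

theorem exists_orth3 (x y z : V4) : ∃ w : V4, w ≠ 0 ∧ x ⬝ᵥ w = 0 ∧ y ⬝ᵥ w = 0 ∧ z ⬝ᵥ w = 0 := by
  let A : Matrix (Fin 3) (Fin 4) ℝ := Matrix.of ![x, y, z]
  have hk : LinearMap.ker (Matrix.mulVecLin A) ≠ ⊥ :=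
    LinearMap.ker_ne_bot_of_finrank_lt (by simp)
  obtain ⟨w, hw, h0⟩ := (Submodule.ne_bot_iff _).1 hk
  have hw' : A *ᵥ w = 0 := hw
  exact ⟨w, h0, congrFun hw' 0, congrFun hw' 1, congrFun hw' 2⟩

theorem Cover.nerve_three (H : Cover g) {a b c : Finset (Fin 10)} (ha : Nerve g a)
    (hb : Nerve g b) (hc : Nerve g c) : ∃ i, i ∉ a ∧ i ∉ b ∧ i ∉ c := by
  obtain ⟨x, -, hx⟩ := ha
  obtain ⟨y, -, hy⟩ := hb
  obtain ⟨z, -, hz⟩ := hc
  obtain ⟨w, hw, h1, h2, h3⟩ := exists_orth3 x y z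
  obtain ⟨i, hi⟩ := H.cov w hw
  exact ⟨i, fun h => H.orth (hx i h) hi h1, fun h => H.orth (hy i h) hi h2,
    fun h => H.orth (hz i h) hi h3⟩

end Vale.Agent.P052
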