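import Vale.Agent.P052.NoCover
import Mathlib.Analysis.InnerProductSpace.PiL2

/-! The Veronese set in dimension nine and the lift to higher dimensions. -/

open Matrix Set

namespace Vale.Agent.P052

theorem cs4 (u w : V4) : (u ⬝ᵥ w) ^ 2 ≤ (u ⬝ᵥ u) * (w ⬝ᵥ w) := by
  simpa [dotProduct, sq] using Finset.sum_mul_sq_le_sq_mul_sq Finset.univ u w

theorem dot_self_nonneg (u : V4) : 0 ≤ u ⬝ᵥ u := Finset.sum_nonneg fun _ _ => mul_self_nonneg _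

theorem quant_aux {δ : ℝ} (hδ : 0 < δ) (hδ1 : δ ≤ 1) {v w y y' : V4} (hy : y ⬝ᵥ y = 1)
    (hy' : y' ⬝ᵥ y' = 1) (h : δ ≤ (y ⬝ᵥ y') ^ 2) (hv : (1 - δ / 48) * (v ⬝ᵥ v) < (v ⬝ᵥ y) ^ 2)
    (hw : (1 - δ / 48) * (w ⬝ᵥ w) < (w ⬝ᵥ y') ^ 2) :
    (v ⬝ᵥ v) * (w ⬝ᵥ w) ≤ 24 / δ * (v ⬝ᵥ w) ^ 2 := by
  set a := v ⬝ᵥ y with ha
  set b := w ⬝ᵥ y' with hb
  have nv := dot_self_nonneg v
  have nw := dot_self_nonneg w
  have h1 : (v - a • y) ⬝ᵥ (v - a • y) = v ⬝ᵥ v - a ^ 2 := by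
    simp only [sub_dotProduct, dotProduct_sub, smul_dotProduct, dotProduct_smul, smul_eq_mul, hy,
      dotProduct_comm y v, ← ha]
    ring
  have h2 : (w - b • y') ⬝ᵥ (w - b • y') = w ⬝ᵥ w - b ^ 2 := by
    simp only [sub_dotProduct, dotProduct_sub, smul_dotProduct, dotProduct_smul, smul_eq_mul, hy',
      dotProduct_comm y' w, ← hb]
    ring
  have h3 : a * b * (y ⬝ᵥ y') = v ⬝ᵥ w - a * (y ⬝ᵥ (w - b • y')) - (v - a • y) ⬝ᵥ w := by
    simp only [sub_dotProduct, dotProduct_sub, smul_dotProduct, dotProduct_smul, smul_eq_mul]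
    ring
  have c1 := cs4 y (w - b • y')
  have c2 := cs4 (v - a • y) w
  have c3 := cs4 v y
  rw [h2, hy, one_mul] at c1
  rw [h1] at c2
  rw [hy, mul_one, ← ha] at c3
  set S := v ⬝ᵥ w
  set Y1 := y ⬝ᵥ (w - b • y')
  set Y2 := (v - a • y) ⬝ᵥ w
  set A := v ⬝ᵥ v
  set B := w ⬝ᵥ w
  set t := y ⬝ᵥ y'
  have d1 : (a * Y1) ^ 2 ≤ δ / 48 * (A * B) := by
    have : Y1 ^ 2 ≤ δ / 48 * B := by linarith
    calc (a * Y1) ^ 2 = a ^ 2 * Y1 ^ 2 := by ring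
      _ ≤ A * (δ / 48 * B) := mul_le_mul c3 this (sq_nonneg _) nv
      _ = _ := by ring
  have d2 : Y2 ^ 2 ≤ δ / 48 * (A * B) := by
    have : A - a ^ 2 ≤ δ / 48 * A := by linarith
    calc Y2 ^ 2 ≤ (A - a ^ 2) * B := c2
      _ ≤ δ / 48 * A * B := mul_le_mul_of_nonneg_right this nw
      _ = _ := by ring
  have d3 : δ / 4 * (A * B) ≤ (a * b * t) ^ 2 := by
    have e1 : A / 2 ≤ a ^ 2 := by nlinarith
    have e2 : B / 2 ≤ b ^ 2 := by nlinarith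
    calc δ / 4 * (A * B) = A / 2 * (B / 2) * δ := by ring
      _ ≤ a ^ 2 * b ^ 2 * t ^ 2 :=
        mul_le_mul (mul_le_mul e1 e2 (by positivity) (sq_nonneg _)) h hδ.le (by positivity)
      _ = _ := by ring
  have d4 : (a * b * t) ^ 2 ≤ 3 * (S ^ 2 + (a * Y1) ^ 2 + Y2 ^ 2) := by
    rw [h3]
    nlinarith [sq_nonneg (S + a * Y1), sq_nonneg (S + Y2), sq_nonneg (a * Y1 - Y2)]
  rw [div_mul_eq_mul_div, le_div_iff₀ hδ]
  nlinarith

theorem no_colouring (col : V4 → Fin 10) {δ : ℝ} (hδ : 0 < δ) (hδ1 : δ ≤ 1) :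
    ∃ x y : V4, x ⬝ᵥ x = 1 ∧ y ⬝ᵥ y = 1 ∧ col x = col y ∧ (x ⬝ᵥ y) ^ 2 < δ := by
  by_contra hc
  push Not at hc
  let C : Fin 10 → Set V4 := fun i => {x | x ⬝ᵥ x = 1 ∧ col x = i}
  have hunit : ∀ i, ∀ y ∈ closure (C i), y ⬝ᵥ y = 1 := fun i y hy =>
    closure_minimal (t := {y : V4 | y ⬝ᵥ y = 1}) (fun x hx => hx.1)
      (isClosed_eq (by fun_prop) continuous_const) hy
  have hK : ∀ i, IsCompact (closure (C i)) := by
    intro i
    refine Bornology.IsBounded.isCompact_closure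
      ((Metric.isBounded_closedBall (x := (0 : V4)) (r := 1)).subset fun x hx => ?_)
    rw [mem_closedBall_zero_iff]
    refine (pi_norm_le_iff_of_nonneg zero_le_one).2 fun k => ?_
    have h1 : x k * x k ≤ x ⬝ᵥ x := Finset.single_le_sum (f := fun j => x j * x j)
      (fun _ _ => mul_self_nonneg _) (Finset.mem_univ k)
    rw [hx.1] at h1
    rw [Real.norm_eq_abs, ← sq_le_one_iff_abs_le_one, sq]
    exact h1
  have hpair : ∀ i, ∀ y ∈ closure (C i), ∀ y' ∈ closure (C i), δ ≤ (y ⬝ᵥ y') ^ 2 := by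
    intro i y hy y' hy'
    refine closure_minimal (t := {y : V4 | δ ≤ (y ⬝ᵥ y') ^ 2}) (fun x hx => ?_)
      (isClosed_le continuous_const (by fun_prop)) hy
    refine closure_minimal (t := {y' : V4 | δ ≤ (x ⬝ᵥ y') ^ 2}) (fun z hz => ?_)
      (isClosed_le continuous_const (by fun_prop)) hy'
    exact hc x z hx.1 hz.1 (hx.2.trans hz.2.symm)
  let F : V4 → V4 → ℝ := fun v y => max 0 ((v ⬝ᵥ y) ^ 2 - (1 - δ / 48) * (v ⬝ᵥ v))
  have hF : Continuous ↿F := by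
    change Continuous fun p : V4 × V4 => max 0 ((p.1 ⬝ᵥ p.2) ^ 2 - (1 - δ / 48) * (p.1 ⬝ᵥ p.1))
    fun_prop
  let g : Fin 10 → V4 → ℝ := fun i v => sSup (F v '' closure (C i))
  have hpos : ∀ i v, 0 < g i v ↔
      ∃ y ∈ closure (C i), (1 - δ / 48) * (v ⬝ᵥ v) < (v ⬝ᵥ y) ^ 2 := by
    intro i v
    constructor
    · intro h
      by_contra hn
      push Not at hn
      have : g i v ≤ 0 := Real.sSup_nonpos (by
        rintro _ ⟨y, hy, rfl⟩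
        exact max_le le_rfl (sub_nonpos.2 (hn y hy)))
      linarith
    · rintro ⟨y, hy, h⟩
      have hb : BddAbove (F v '' closure (C i)) :=
        (hK i).bddAbove_image (hF.comp (Continuous.prodMk_right v)).continuousOn
      exact lt_of_lt_of_le (lt_max_of_lt_right (sub_pos.2 h)) (le_csSup hb ⟨y, hy, rfl⟩)
  have hnn : ∀ i v, 0 ≤ g i v := fun i v =>
    Real.sSup_nonneg (by rintro _ ⟨y, -, rfl⟩; exact le_max_left _ _)
  refine not_cover g ⟨fun i => (hK i).continuous_sSup hF, hnn, fun i => ?_, ?_, ?_, ?_⟩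
  · refine le_antisymm (not_lt.1 fun h => ?_) (hnn i 0)
    obtain ⟨y, -, hy⟩ := (hpos i 0).1 h
    simp at hy
  · intro i v c hc0 h
    obtain ⟨y, hy, h⟩ := (hpos i v).1 h
    refine (hpos i _).2 ⟨y, hy, ?_⟩
    simp only [smul_dotProduct, dotProduct_smul, smul_eq_mul]
    have : 0 < c ^ 2 := by positivity
    nlinarith
  · intro v hv
    have hp := dot_self_pos hv
    have hs := Real.sqrt_pos.2 hp
    have hss := Real.mul_self_sqrt hp.le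
    have hy : ((√(v ⬝ᵥ v))⁻¹ • v) ⬝ᵥ ((√(v ⬝ᵥ v))⁻¹ • v) = 1 := by
      simp only [smul_dotProduct, dotProduct_smul, smul_eq_mul]
      field_simp
      nlinarith
    refine ⟨col ((√(v ⬝ᵥ v))⁻¹ • v), (hpos _ v).2 ⟨_, subset_closure ⟨hy, rfl⟩, ?_⟩⟩
    have : (v ⬝ᵥ ((√(v ⬝ᵥ v))⁻¹ • v)) ^ 2 = v ⬝ᵥ v := by
      simp only [dotProduct_smul, smul_eq_mul]
      field_simp
      nlinarith
    rw [this]
    nlinarith
  · refine ⟨24 / δ, fun i v w hv hw => ?_⟩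
    obtain ⟨y, hy, h1⟩ := (hpos i v).1 hv
    obtain ⟨y', hy', h2⟩ := (hpos i w).1 hw
    exact quant_aux hδ hδ1 (hunit i y hy) (hunit i y' hy') (hpair i y hy y' hy') h1 h2

abbrev EE (d : ℕ) := EuclideanSpace ℝ (Fin d)

def Bad (d k : ℕ) : Prop :=
  ∃ (Y : Set (EE d)) (c : EE d) (R : ℝ), R < 1 ∧ (∀ y ∈ Y, dist y c ^ 2 = R) ∧
    (∀ y ∈ Y, ∀ y' ∈ Y, dist y y' ^ 2 ≤ 2) ∧ (∃ y ∈ Y, ∃ y' ∈ Y, dist y y' ^ 2 = 2) ∧
    ∀ (col : EE d → Fin k) (q : ℝ), q < 2 →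
      ∃ y ∈ Y, ∃ y' ∈ Y, col y = col y' ∧ q < dist y y' ^ 2

noncomputable def ver (x : V4) : EE 9 :=
  WithLp.toLp 2 ![x 0 * x 1 + x 2 * x 3, x 0 * x 1 - x 2 * x 3, x 0 * x 2 + x 1 * x 3,
    x 0 * x 2 - x 1 * x 3, x 0 * x 3 + x 1 * x 2, x 0 * x 3 - x 1 * x 2,
    (x 0 ^ 2 + x 1 ^ 2 - x 2 ^ 2 - x 3 ^ 2) / 2, (x 0 ^ 2 - x 1 ^ 2 + x 2 ^ 2 - x 3 ^ 2) / 2,
    (x 0 ^ 2 - x 1 ^ 2 - x 2 ^ 2 + x 3 ^ 2) / 2]

theorem dist_ver {x y : V4} (hx : x ⬝ᵥ x = 1) (hy : y ⬝ᵥ y = 1) :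
    dist (ver x) (ver y) ^ 2 = 2 - 2 * (x ⬝ᵥ y) ^ 2 := by
  rw [EuclideanSpace.dist_sq_eq]
  simp only [dotProduct, Fin.sum_univ_four] at hx hy ⊢
  simp [ver, Fin.sum_univ_succ, Real.dist_eq]
  linear_combination (3 / 4 * (x 0 * x 0 + x 1 * x 1 + x 2 * x 2 + x 3 * x 3 + 1) +
    (y 0 * y 0 + y 1 * y 1 + y 2 * y 2 + y 3 * y 3) / 2) * hx +
    (3 / 4 * (y 0 * y 0 + y 1 * y 1 + y 2 * y 2 + y 3 * y 3 + 1) + 1 / 2) * hy

theorem dist_ver_zero {x : V4} (hx : x ⬝ᵥ x = 1) : dist (ver x) 0 ^ 2 = 3 / 4 := by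
  rw [EuclideanSpace.dist_sq_eq]
  simp only [dotProduct, Fin.sum_univ_four] at hx ⊢
  simp [ver, Fin.sum_univ_succ, Real.dist_eq]
  linear_combination (3 / 4 * (x 0 * x 0 + x 1 * x 1 + x 2 * x 2 + x 3 * x 3 + 1)) * hx

theorem bad_nine : Bad 9 10 := by
  refine ⟨ver '' {x | x ⬝ᵥ x = 1}, 0, 3 / 4, by norm_num, ?_, ?_, ?_, ?_⟩
  · rintro _ ⟨x, hx, rfl⟩
    exact dist_ver_zero hx
  · rintro _ ⟨x, hx, rfl⟩ _ ⟨y, hy, rfl⟩
    rw [dist_ver hx hy]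
    nlinarith [sq_nonneg (x ⬝ᵥ y)]
  · have h1 : (![1, 0, 0, 0] : V4) ⬝ᵥ ![1, 0, 0, 0] = 1 := by simp
    have h2 : (![0, 1, 0, 0] : V4) ⬝ᵥ ![0, 1, 0, 0] = 1 := by simp
    refine ⟨_, ⟨_, h1, rfl⟩, _, ⟨_, h2, rfl⟩, ?_⟩
    rw [dist_ver h1 h2]
    simp
  · intro col q hq
    obtain ⟨x, y, hx, hy, h1, h2⟩ := no_colouring (fun x => col (ver x))
      (δ := min 1 (1 - q / 2)) (lt_min one_pos (by linarith)) (min_le_left _ _)
    refine ⟨_, ⟨x, hx, rfl⟩, _, ⟨y, hy, rfl⟩, h1, ?_⟩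
    rw [dist_ver hx hy]
    linarith [min_le_right 1 (1 - q / 2)]

noncomputable def lift {d : ℕ} (h : ℝ) (y : EE d) : EE (d + 1) :=
  WithLp.toLp 2 (Fin.cons h y.ofLp)

theorem dist_lift {d : ℕ} (h h' : ℝ) (y y' : EE d) :
    dist (lift h y) (lift h' y') ^ 2 = (h - h') ^ 2 + dist y y' ^ 2 := by
  rw [EuclideanSpace.dist_sq_eq, EuclideanSpace.dist_sq_eq, Fin.sum_univ_succ]
  simp [lift, Real.dist_eq]

theorem Bad.succ {d k : ℕ} (h : Bad d (k + 1)) : Bad (d + 1) (k + 2) := by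
  obtain ⟨Y, c, R, hR, h1, h2, ⟨a, ha, a', ha', h3⟩, h4⟩ := h
  have hp : 0 < 2 - R := by linarith
  have hH := Real.sqrt_pos.2 hp
  have hHH := Real.sq_sqrt hp.le
  set H := √(2 - R)
  have hap : ∀ y ∈ Y, dist (lift H c) (lift 0 y) ^ 2 = 2 := by
    intro y hy
    rw [dist_lift, dist_comm, h1 y hy, sub_zero, hHH]
    ring
  refine ⟨insert (lift H c) (lift 0 '' Y), lift (H - 1 / H) c, 1 / (2 - R), ?_, ?_, ?_, ?_, ?_⟩
  · rw [div_lt_one hp]; linarith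
  · rintro _ (rfl | ⟨y, hy, rfl⟩)
    · rw [dist_lift, ← hHH]; simp
    · rw [dist_lift, h1 y hy, ← hHH]
      have : R = 2 - H ^ 2 := by linarith
      rw [this]
      field_simp
      ring
  · rintro _ (rfl | ⟨y, hy, rfl⟩) _ (rfl | ⟨y', hy', rfl⟩)
    · simp
    · exact (hap y' hy').le
    · rw [dist_comm]; exact (hap y hy).le
    · rw [dist_lift]; simpa using h2 y hy y' hy'
  · exact ⟨_, Or.inl rfl, _, Or.inr ⟨a, ha, rfl⟩, hap a ha⟩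
  · intro col q hq
    by_cases hc : ∃ y ∈ Y, col (lift H c) = col (lift 0 y)
    · obtain ⟨y, hy, e⟩ := hc
      exact ⟨_, Or.inl rfl, _, Or.inr ⟨y, hy, rfl⟩, e, by rw [hap y hy]; exact hq⟩
    · push Not at hc
      have : ∀ y : EE d, ∃ j : Fin (k + 1),
          y ∈ Y → (col (lift H c)).succAbove j = col (lift 0 y) := by
        intro y
        by_cases hy : y ∈ Y
        · obtain ⟨j, hj⟩ := Fin.exists_succAbove_eq (hc y hy).symm
          exact ⟨j, fun _ => hj⟩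
        · exact ⟨0, fun h => (hy h).elim⟩
      choose col' hcol using this
      obtain ⟨y, hy, y', hy', e, h5⟩ := h4 col' q hq
      refine ⟨_, Or.inr ⟨y, hy, rfl⟩, _, Or.inr ⟨y', hy', rfl⟩, ?_, ?_⟩
      · rw [← hcol y hy, ← hcol y' hy', e]
      · rw [dist_lift]; simpa using h5

theorem bad_of_le {d : ℕ} (hd : 9 ≤ d) : Bad d (d + 1) := by
  induction d, hd using Nat.le_induction with
  | base => exact bad_nine
  | succ d _ ih => exact ih.succ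

theorem Bad.final {d k : ℕ} (h : Bad d (k + 1)) :
    ∃ Y : Set (EE d), Bornology.IsBounded Y ∧ 0 < Metric.diam Y ∧
      ∀ Z : Fin (k + 1) → Set (EE d), ⋃ i, Z i = Y → ∃ i, Metric.diam Y ≤ Metric.diam (Z i) := by
  obtain ⟨Y, c, R, hR, h1, h2, ⟨a, ha, a', ha', h3⟩, h4⟩ := h
  have hb : Bornology.IsBounded Y :=
    (Metric.isBounded_closedBall (x := c) (r := 1)).subset fun y hy => by
      have := h1 y hy
      rw [Metric.mem_closedBall]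
      nlinarith [dist_nonneg (x := y) (y := c)]
  have hle : Metric.diam Y ≤ √2 := Metric.diam_le_of_forall_dist_le (Real.sqrt_nonneg _)
    fun y hy y' hy' => Real.le_sqrt_of_sq_le (h2 y hy y' hy')
  refine ⟨Y, hb, ?_, fun Z hZ => ?_⟩
  · refine lt_of_lt_of_le ?_ (Metric.dist_le_diam_of_mem hb ha ha')
    by_contra hc
    have : dist a a' = 0 := le_antisymm (not_lt.1 hc) dist_nonneg
    rw [this] at h3
    norm_num at h3
  · by_contra hc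
    push Not at hc
    obtain ⟨i0, hi0⟩ := Finite.exists_max fun i => Metric.diam (Z i)
    have : ∀ y : EE d, ∃ j : Fin (k + 1), y ∈ Y → y ∈ Z j := by
      intro y
      by_cases hy : y ∈ Y
      · rw [← hZ] at hy
        obtain ⟨j, hj⟩ := mem_iUnion.1 hy
        exact ⟨j, fun _ => hj⟩
      · exact ⟨0, fun h => (hy h).elim⟩
    choose col hcol using this
    have hq : Metric.diam (Z i0) ^ 2 < 2 := by
      have h5 := (hc i0).trans_le hle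
      have h6 := Real.sq_sqrt (show (0 : ℝ) ≤ 2 by norm_num)
      nlinarith [Metric.diam_nonneg (s := Z i0)]
    obtain ⟨y, hy, y', hy', e, h5⟩ := h4 col _ hq
    have h6 : dist y y' ≤ Metric.diam (Z i0) :=
      (Metric.dist_le_diam_of_mem (hb.subset (hZ ▸ subset_iUnion Z _)) (hcol y hy)
        (e ▸ hcol y' hy')).trans (hi0 _)
    nlinarith [dist_nonneg (x := y) (y := y')]

end Vale.Agent.P052
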