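import Vale.Agent.P052.Odd
import Vale.Agent.P052.Cert

/-! No cover by ten colours exists. -/

open Finset

namespace Vale.Agent.P052

variable {g : Fin 10 → V4 → ℝ}

def toSet (e : Fin 10 ≃ Fin 10) (s : ℕ) : Finset (Fin 10) := univ.filter fun c => s.testBit (e c)

theorem mem_toSet {e : Fin 10 ≃ Fin 10} {s : ℕ} {c : Fin 10} :
    c ∈ toSet e s ↔ s.testBit (e c) = true := by simp [toSet]

theorem card_toSet (e : Fin 10 ≃ Fin 10) (s : ℕ) : (toSet e s).card = pc s := by
  have h1 : (toSet e s).card = (univ.filter fun i : Fin 10 => s.testBit i).card :=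
    Finset.card_equiv e (by simp [toSet])
  rw [h1, Finset.card_filter, Fin.sum_univ_eq_sum_range (fun i => if s.testBit i then 1 else 0) 10,
    ← Finset.card_filter]
  simp [pc, Finset.card, Finset.filter, Finset.range, Multiset.range]

theorem exists_mask (e : Fin 10 ≃ Fin 10) (u : Finset (Fin 10)) :
    ∃ w < 1024, toSet e w = u := by
  refine ⟨Nat.ofBits fun i : Fin 10 => decide (e.symm i ∈ u), Nat.ofBits_lt_two_pow _, ?_⟩
  ext c
  rw [mem_toSet, Nat.testBit_ofBits_lt _ _ (e c).2]
  simp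

theorem mask_ext {e : Fin 10 ≃ Fin 10} {a b : ℕ} (ha : a < 1024) (hb : b < 1024)
    (h : toSet e a = toSet e b) : a = b := by
  apply Nat.eq_of_testBit_eq
  intro i
  by_cases hi : i < 10
  · have := congrArg (fun s => e.symm ⟨i, hi⟩ ∈ s) h
    simp only [mem_toSet, Equiv.apply_symm_apply, eq_iff_iff] at this
    exact Bool.eq_iff_iff.2 this
  · have h2 : 1024 ≤ 2 ^ i := Nat.pow_le_pow_right (n := 2) (by norm_num) (not_lt.1 hi)
    rw [Nat.testBit_lt_two_pow (ha.trans_le h2), Nat.testBit_lt_two_pow (hb.trans_le h2)]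

theorem toSet_or (e : Fin 10 ≃ Fin 10) (a b : ℕ) : toSet e (a ||| b) = toSet e a ∪ toSet e b := by
  ext c; simp [mem_toSet]

theorem toSet_and (e : Fin 10 ≃ Fin 10) (a b : ℕ) : toSet e (a &&& b) = toSet e a ∩ toSet e b := by
  ext c; simp [mem_toSet]

theorem toSet_zero (e : Fin 10 ≃ Fin 10) : toSet e 0 = ∅ := by
  ext c; simp [mem_toSet]

theorem toSet_full (e : Fin 10 ≃ Fin 10) : toSet e 1023 = univ := by
  ext c
  simp only [mem_toSet, mem_univ, iff_true]
  generalize e c = i
  revert i
  decide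

theorem mem_toSet_xor {e : Fin 10 ≃ Fin 10} {a b : ℕ} {c : Fin 10} :
    c ∈ toSet e (a ^^^ b) ↔ ¬ (c ∈ toSet e a ↔ c ∈ toSet e b) := by
  simp only [mem_toSet, Nat.testBit_xor]
  cases a.testBit (e c) <;> cases b.testBit (e c) <;> simp

theorem Nerve.mono {s t : Finset (Fin 10)} (h : Nerve g s) (hts : t ⊆ s) : Nerve g t := by
  obtain ⟨x, hx, h⟩ := h
  exact ⟨x, hx, fun i hi => h i (hts hi)⟩

theorem Cover.nerve_small (H : Cover g) {s : Finset (Fin 10)} (hs : s.card ≤ 2) : Nerve g s := by
  obtain ⟨u, hsu, hu⟩ := Finset.exists_superset_card_eq hs (by simp)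
  obtain ⟨i, j, -, rfl⟩ := Finset.card_eq_two.1 hu
  exact (H.nerve_pair i j).mono hsu

theorem Cover.not_nerve_large (H : Cover g) {s : Finset (Fin 10)} (hs : 5 ≤ s.card) :
    ¬ Nerve g s := by
  have six : ∀ u : Finset (Fin 10), u.card = 6 → ¬ Nerve g u := by
    intro u hu h
    have hc : uᶜ.card = 4 := by rw [Finset.card_compl, hu]; rfl
    obtain ⟨a, ha, ha2⟩ := Finset.exists_subset_card_eq (s := uᶜ) (n := 2) (by omega)
    have hb : (uᶜ \ a).card = 2 := by rw [Finset.card_sdiff_of_subset ha]; omega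
    obtain ⟨i, h1, h2, h3⟩ := H.nerve_three h (H.nerve_small ha2.le) (H.nerve_small hb.le)
    exact h3 (by simp [h1, h2])
  intro h
  obtain ⟨u, hu, hu5⟩ := Finset.exists_subset_card_eq hs
  obtain ⟨j, hj, h2⟩ := H.not_maximal (t := u) (by rw [hu5]; decide) (h.mono hu)
  exact six _ (by rw [Finset.card_insert_of_notMem hj, hu5]) h2

theorem Cover.nerve_other (H : Cover g) {t J : Finset (Fin 10)} (ht : t.Nonempty)
    (hJ : ∀ i ∈ t, i ∉ J) (hJne : J.Nonempty) (h : Nerve g (t ∪ J)) :
    ∃ m, m ∉ t ∧ m ∉ J ∧ Nerve g (insert m t) := by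
  obtain ⟨u, h1, h2, h3, h4, -⟩ := H.nerve_split ht (h.mono subset_union_left) hJ hJne
  have : ¬ u ⊆ t := fun h5 => h4 (by rwa [subset_antisymm h5 h1])
  obtain ⟨m, hm, hmt⟩ := Finset.not_subset.1 this
  exact ⟨m, hmt, h2 m hm, h3.mono (insert_subset hm h1)⟩

theorem Cover.exists_triangle (H : Cover g) : ∃ t : Finset (Fin 10), t.card = 3 ∧ Nerve g t := by
  obtain ⟨u, h1, h2, h3, -, h5⟩ := H.nerve_split (t := {0, 1}) (J := {5, 6, 7, 8, 9})
    (by simp) (H.nerve_pair 0 1) (by decide) (by simp)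
  by_cases h : u ⊆ {0, 1}
  · rw [subset_antisymm h h1] at h5
    rcases h5 with h5 | h5
    · exact (H.not_nerve_large (by decide) h5).elim
    · exact ⟨_, by decide, h5⟩
  · obtain ⟨m, hm, hmt⟩ := Finset.not_subset.1 h
    exact ⟨insert m {0, 1}, by rw [Finset.card_insert_of_notMem hmt]; rfl,
      h3.mono (insert_subset hm h1)⟩

theorem Cover.hypM (H : Cover g) (e : Fin 10 ≃ Fin 10) (u1 : Nerve g (toSet e 15))
    (u2 : Nerve g (toSet e 23)) : HypM fun s => Nerve g (toSet e s) where
  small s hs := H.nerve_small (by rwa [card_toSet])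
  large s hs := H.not_nerve_large (by rwa [card_toSet])
  down s t h hs := hs.mono (by rw [← h, toSet_and]; exact inter_subset_right)
  cover a b c h ha hb hc := by
    obtain ⟨i, h1, h2, h3⟩ := H.nerve_three ha hb hc
    have : i ∈ toSet e (a ||| b ||| c) := by rw [h, toSet_full]; exact mem_univ _
    simp [toSet_or, h1, h2, h3] at this
  W t I J ht hJ h htI htJ hIJ hB := by
    have hle : t ≤ 1023 := h ▸ (Nat.left_le_or.trans Nat.left_le_or)
    have hle' : J ≤ 1023 := h ▸ Nat.right_le_or
    have hne : ∀ s ≤ 1023, s ≠ 0 → (toSet e s).Nonempty := fun s hs h0 =>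
      nonempty_iff_ne_empty.2 fun h' => h0 (mask_ext (e := e) (by omega) (by omega)
        (by rw [h', toSet_zero]))
    have a1 := congrArg (toSet e) h
    have a2 := congrArg (toSet e) htI
    have a3 := congrArg (toSet e) htJ
    have a4 := congrArg (toSet e) hIJ
    simp only [toSet_or, toSet_and, toSet_zero, toSet_full, Finset.ext_iff, mem_union, mem_inter,
      mem_univ, notMem_empty, iff_true, iff_false, not_and] at a1 a2 a3 a4
    obtain ⟨u, h1, h2, h3, -, h5⟩ := H.nerve_split (hne t hle ht) hB a3 (hne J hle' hJ)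
    refine h5.imp_right fun h5 => ?_
    obtain ⟨w, hw, ew⟩ := exists_mask e (u \ toSet e t)
    refine ⟨w, hw, mask_ext (e := e) (Nat.and_le_left.trans_lt hw) hw ?_, ?_, ?_⟩
    · rw [toSet_and, ew]
      ext c
      have := a1 c
      have := h2 c
      simp only [mem_inter, mem_sdiff]
      tauto
    · rwa [toSet_or, ew, union_sdiff_of_subset h1]
    · refine h5.mono fun c hc => ?_
      rw [mem_toSet_xor, ew] at hc
      have := a1 c
      have := a2 c
      have := a4 c
      have := h2 c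
      simp only [mem_compl, mem_union, mem_sdiff] at hc ⊢
      tauto
  G t I J ht _ hJ h htI htJ hIJ hB := by
    have hle : t ≤ 1023 := h ▸ (Nat.left_le_or.trans Nat.left_le_or)
    have hle' : J ≤ 1023 := h ▸ Nat.right_le_or
    have hne : ∀ s ≤ 1023, s ≠ 0 → (toSet e s).Nonempty := fun s hs h0 =>
      nonempty_iff_ne_empty.2 fun h' => h0 (mask_ext (e := e) (by omega) (by omega)
        (by rw [h', toSet_zero]))
    have a1 := congrArg (toSet e) h
    have a3 := congrArg (toSet e) htJ
    simp only [toSet_or, toSet_and, toSet_zero, toSet_full, Finset.ext_iff, mem_union, mem_inter,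
      mem_univ, notMem_empty, iff_true, iff_false, not_and] at a1 a3
    obtain ⟨m, h1, h2, h3⟩ := H.nerve_other (hne t hle ht) a3 (hne J hle' hJ)
      (by rwa [toSet_or] at hB)
    obtain ⟨w, hw, ew⟩ := exists_mask e {m}
    refine ⟨w, hw, ?_, mask_ext (e := e) (Nat.and_le_left.trans_lt hw) hw ?_, ?_⟩
    · rintro rfl
      rw [toSet_zero] at ew
      exact (singleton_ne_empty m) ew.symm
    · rw [toSet_and, ew]
      have := a1 m
      exact singleton_inter_of_mem (by tauto)
    · rw [toSet_or, ew]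
      exact h3.mono (by intro c; simp)
  P t I ht h _ hB := by
    have a1 := congrArg (toSet e) h
    simp only [toSet_or, toSet_full, Finset.ext_iff, mem_union, mem_univ, iff_true] at a1
    obtain ⟨m, h1, h3⟩ := H.not_maximal (t := toSet e t) (by rw [card_toSet, ht]; decide) hB
    obtain ⟨w, hw, ew⟩ := exists_mask e {m}
    refine ⟨w, hw, ?_, mask_ext (e := e) (Nat.and_le_left.trans_lt hw) hw ?_, ?_⟩
    · rintro rfl
      rw [toSet_zero] at ew
      exact (singleton_ne_empty m) ew.symm
    · rw [toSet_and, ew]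
      have := a1 m
      exact singleton_inter_of_mem (by tauto)
    · rw [toSet_or, ew]
      exact h3.mono (by intro c; simp)
  u1 := u1
  u2 := u2

theorem not_cover (g : Fin 10 → V4 → ℝ) : ¬ Cover g := by
  intro H
  obtain ⟨t, ht, h⟩ := H.exists_triangle
  obtain ⟨j, hj, h1⟩ := H.not_maximal (t := t) (by rw [ht]; decide) h
  obtain ⟨m, hm1, hm2, h2⟩ := H.nerve_other (t := t) (J := {j}) (card_pos.1 (by omega))
    (fun i hi h => hj (mem_singleton.1 h ▸ hi)) (by simp) (h1.mono (by intro c; simp))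
  obtain ⟨a, b, c, hab, hac, hbc, rfl⟩ := Finset.card_eq_three.1 ht
  simp only [mem_insert, mem_singleton, not_or] at hj hm1 hm2
  let f : Fin 5 → Fin 10 := ![a, b, c, j, m]
  have hf : Function.Injective f := by
    intro x y hxy
    fin_cases x <;> fin_cases y <;> simp_all [f]
  obtain ⟨e, he⟩ := Equiv.Perm.exists_extending_pair f
    (Fin.castLE (by norm_num : 5 ≤ 10)) hf (Fin.castLE_injective _)
  have e0 : e a = 0 := he 0
  have e1 : e b = 1 := he 1
  have e2 : e c = 2 := he 2
  have e3 : e j = 3 := he 3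
  have e4 : e m = 4 := he 4
  refine not_hypM _ (H.hypM e (h1.mono fun x hx => ?_) (h2.mono fun x hx => ?_))
  · rw [mem_toSet] at hx
    have : e x = 0 ∨ e x = 1 ∨ e x = 2 ∨ e x = 3 := by
      revert hx
      generalize e x = i
      revert i
      decide
    rw [← e0, ← e1, ← e2, ← e3] at this
    simp only [EmbeddingLike.apply_eq_iff_eq] at this
    simp only [mem_insert, mem_singleton]
    tauto
  · rw [mem_toSet] at hx
    have : e x = 0 ∨ e x = 1 ∨ e x = 2 ∨ e x = 4 := by
      revert hx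
      generalize e x = i
      revert i
      decide
    rw [← e0, ← e1, ← e2, ← e4] at this
    simp only [EmbeddingLike.apply_eq_iff_eq] at this
    simp only [mem_insert, mem_singleton]
    tauto

end Vale.Agent.P052
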