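import Vale.Agent.P052.Theta

/-! The degree of the localised map is odd; combinatorial consequences for the nerve. -/

open Matrix Filter Topology Set Vale.Agent.Lib.Degree

namespace Vale.Agent.P052

variable {g : Fin 10 → V4 → ℝ}

theorem Cover.theta_odd (H : Cover g) {t : Finset (Fin 10)} (ht : t.Nonempty)
    (h0 : ∀ i ∈ t, 0 < g i e0) : ∃ c > (0 : ℝ), ∀ y : E10, ‖y‖ < c → (∀ i ∈ t, 0 < y i) →
      (∀ b ∈ closure (Om g t), Th g b - y = 0 → b ∈ Om g t) ∧
        OddDeg (fun b => Th g b - y) (Om g t) := by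
  obtain ⟨c1, hc1, h1⟩ := H.exists_Om_lb ht h0
  have hob := H.isBounded_Om ht h0
  have hoo := H.isOpen_Om t
  obtain ⟨R, hR⟩ := (hob.isCompact_closure.image contDiff_Psi.continuous).isBounded.subset_closedBall
    (0 : E10)
  obtain ⟨c2, hc2, h2⟩ := H.exists_lb (r := 1 / 16) (by norm_num) (max R (1 / 16))
  have hin : ∀ y : E10, ‖y‖ < c1 → (∀ i ∈ t, 0 < y i) →
      ∀ b ∈ closure (Om g t), Th g b - y = 0 → b ∈ Om g t := by
    intro y hy hyt b hb e
    have e' : Th g b = y := sub_eq_zero.1 e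
    exact h1 b hb (e' ▸ hy) (e' ▸ hyt)
  refine ⟨c1, hc1, fun y hy hyt => ⟨hin y hy hyt, ?_⟩⟩
  let η : ℝ := min c1 c2 / 2
  have hη : 0 < η := by positivity
  have hη1 : 2 * η ≤ c1 := by have := min_le_left c1 c2; simp only [η]; linarith
  have hη2 : 2 * η ≤ c2 := by have := min_le_right c1 c2; simp only [η]; linarith
  let ys : E10 := fun i => if i ∈ t then η else -η
  have hys : ‖ys‖ ≤ η := by
    refine (pi_norm_le_iff_of_nonneg hη.le).2 fun i => ?_
    simp only [ys]
    split_ifs <;> simp [abs_of_pos hη]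
  have hnear : ∀ u : E10, ‖u - ys‖ ≤ η / 2 →
      ‖u‖ < 2 * η ∧ (∀ i ∈ t, 0 < u i) ∧ ∀ i ∉ t, u i < 0 := by
    intro u hu
    refine ⟨?_, fun i hi => ?_, fun i hi => ?_⟩
    · have := norm_add_le (u - ys) ys
      rw [sub_add_cancel] at this
      linarith
    · have := (abs_le.1 ((norm_le_pi_norm _ i).trans hu)).1
      simp only [Pi.sub_apply, ys, if_pos hi] at this
      linarith
    · have := (abs_le.1 ((norm_le_pi_norm _ i).trans hu)).2
      simp only [Pi.sub_apply, ys, if_neg hi] at this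
      linarith
  let Om2 : Set E10 := Om g t ∩ {b | ∀ j ∉ t, FF g (nb b) j < 0}
  have hFnb : Continuous fun b => FF g (nb b) := H.continuous_FF.comp contDiff_nb.continuous
  have ho2 : IsOpen Om2 := by
    refine hoo.inter ?_
    rw [show {b : E10 | ∀ j ∉ t, FF g (nb b) j < 0} = ⋂ j ∈ tᶜ, {b | FF g (nb b) j < 0} by
      ext; simp]
    exact isOpen_biInter_finset fun j _ =>
      isOpen_lt ((continuous_apply j).comp hFnb) continuous_const
  have hb2 : Bornology.IsBounded Om2 := hob.subset inter_subset_left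
  have hp2 : ∀ b ∈ Om2, pp (nb b) = 0 := by
    intro b hb
    refine H.eq_zero_of_GG fun i hi => ?_
    have := H.FF_pos.2 hi
    by_cases hit : i ∈ t
    · rw [H.FF_nb_eq_zero (hb.1.2.1 i hit)] at this
      exact lt_irrefl _ this
    · linarith [hb.2 i hit]
  have hcl2 : ∀ b ∈ closure Om2, b ∈ closure (Om g t) ∧ Th g b = FF g (Psi b) := by
    intro b hb
    have hb1 : b ∈ closure (Om g t) := closure_mono inter_subset_left hb
    refine ⟨hb1, H.Th_eq (H.closure_Om hb1).1 ?_⟩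
    exact closure_minimal (t := {b : E10 | pp (nb b) = 0}) hp2
      (isClosed_eq (continuous_pp.comp contDiff_nb.continuous) continuous_const) hb
  have hmem2 : ∀ b ∈ closure (Om g t), ‖Th g b - ys‖ ≤ η / 2 → b ∈ Om2 := by
    intro b hb hn
    obtain ⟨a1, a2, a3⟩ := hnear _ hn
    refine ⟨h1 b hb (by linarith) a2, fun j hj => ?_⟩
    have := a3 j hj
    have h3 := H.GG_nonneg j (mat (rb b))
    unfold Th at this
    linarith
  have hF : OddDeg (fun a => FF g a - ys) (Metric.ball 0 (1 / 16)) :=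
    H.oddDeg_FF (by norm_num) fun a ha => by
      have := h2 a ha.ge (ha.le.trans (le_max_right _ _))
      linarith
  have hcomp := oddDeg_comp (Ω₂ := Om2) (H.continuous_FF.sub continuous_const) contDiff_Psi
    Metric.isOpen_ball Metric.isBounded_ball ho2 hb2
    (fun b hb b' hb' e => Psi_inj hb.1.1 hb'.1.1 (hp2 b hb) (hp2 b' hb') e) (half_pos hη)
    (fun a ha hn => by
      obtain ⟨a1, a2, a3⟩ := hnear _ hn
      rw [closure_ball _ (by norm_num), mem_closedBall_zero_iff] at ha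
      refine ⟨?_, ?_⟩
      · rw [mem_ball_zero_iff]
        by_contra hc
        have := h2 a (not_lt.1 hc) (ha.trans (le_max_right _ _))
        linarith
      · obtain ⟨b, hb, e1, e2⟩ := H.exists_chart ht h0 ha a2 a3
        refine ⟨b, ⟨hb, fun j hj => ?_⟩, e2⟩
        rw [H.FF_neg', e1, ← H.FF_neg']
        exact a3 j hj)
    (fun b hb hn => by
      obtain ⟨b1, b2⟩ := hcl2 b hb
      refine ⟨hmem2 b b1 (by rw [b2]; exact hn), ?_⟩
      rw [mem_ball_zero_iff]
      by_contra hc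
      have h3 : ‖Psi b‖ ≤ R := by simpa using hR ⟨b, b1, rfl⟩
      have := h2 _ (not_lt.1 hc) (h3.trans (le_max_left _ _))
      have := (hnear _ hn).1
      linarith) hF
  obtain ⟨k, hk, e⟩ := hcomp
  refine ⟨k, hk, ?_⟩
  have hTs : Continuous fun b => Th g b - ys := H.continuous_Th.sub continuous_const
  rw [← e, ← deg_congr hTs ((H.continuous_FF.sub continuous_const).comp contDiff_Psi.continuous)
    ho2 hb2, ← deg_excision hTs hoo hob ho2 inter_subset_left]
  · refine deg_homotopy (H.continuous_Th.sub continuous_const) hTs hoo hob fun b hb τ hτ e => ?_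
    refine hb.2 ?_
    rw [hoo.interior_eq]
    refine hin ((1 - τ) • y + τ • ys) ?_ (fun i hi => ?_) b hb.1 ?_
    · have := norm_add_le ((1 - τ) • y) (τ • ys)
      rw [norm_smul, norm_smul, Real.norm_eq_abs, Real.norm_eq_abs, abs_of_nonneg hτ.1,
        abs_of_nonneg (sub_nonneg.2 hτ.2)] at this
      have h3 : ‖ys‖ < c1 := by linarith
      rcases eq_or_lt_of_le hτ.1 with h4 | h4
      · rw [← h4]; simpa using hy
      · nlinarith [hτ.2]
    · have := hyt i hi
      simp only [Pi.add_apply, Pi.smul_apply, smul_eq_mul, ys, if_pos hi]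
      rcases eq_or_lt_of_le hτ.1 with h4 | h4
      · rw [← h4]; simpa using this
      · nlinarith [hτ.2]
    · rw [← e]
      ext i
      simp only [Pi.add_apply, Pi.smul_apply, smul_eq_mul, Pi.sub_apply]
      ring
  · intro b hb e
    exact hmem2 b hb (by rw [e, norm_zero]; positivity)
  · intro b hb e
    refine hb.2 ?_
    rw [ho2.interior_eq]
    exact hmem2 b (hcl2 b hb.1).1 (by rw [e, norm_zero]; positivity)
  · intro b hb
    rw [(hcl2 b hb.1).2]
    rfl

theorem Cover.exists_pattern_e0 (H : Cover g) {t : Finset (Fin 10)} (ht : t.Nonempty)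
    (h0 : ∀ i ∈ t, 0 < g i e0) (J : Finset (Fin 10)) (hJ : ∀ i ∈ t, i ∉ J) :
    ∃ (v : V4) (P Q : M4), v ≠ 0 ∧ P.PosSemidef ∧ Q.PosSemidef ∧ P * Q = 0 ∧ P *ᵥ v = 0 ∧
      Q *ᵥ v = 0 ∧ (∀ i ∈ t, 0 < g i v) ∧ (∀ j ∈ J, 0 < GG g j Q) ∧
      ∀ i ∉ J, 0 < g i v ∨ 0 < GG g i P := by
  obtain ⟨c, hc, h⟩ := H.theta_odd ht h0
  let y : E10 := fun i => if i ∈ J then -(c / 2) else c / 2
  have hy : ‖y‖ < c := by
    refine lt_of_le_of_lt ((pi_norm_le_iff_of_nonneg (half_pos hc).le).2 fun i => ?_)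
      (half_lt_self hc)
    simp only [y]
    split_ifs <;> simp [abs_of_pos hc]
  obtain ⟨h1, h2⟩ := h y hy fun i hi => by simp [y, hJ i hi, hc]
  obtain ⟨b, hb, e⟩ := exists_zero_of_deg_ne_zero (H.continuous_Th.sub continuous_const)
    (H.isOpen_Om t) (H.isBounded_Om ht h0) h2.ne_zero
  have hb' := h1 b hb e
  have e'' : Th g b = y := sub_eq_zero.1 e
  have e' : ∀ i, GG g i (mat (rb b)) + FF g (nb b) i = y i := fun i => congrFun e'' i
  refine ⟨vv b, pp (nb b), pp (-nb b), vv_ne_zero b, pp_psd _, pp_psd _, pp_mul _,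
    pp_mulVec (nb_mulVec b), pp_neg_mulVec (nb_mulVec b), hb'.2.1, fun j hj => ?_, fun i hi => ?_⟩
  · have := e' j
    simp only [y, if_pos hj] at this
    have h3 := H.GG_nonneg j (mat (rb b))
    exact H.FF_neg'.1 (by linarith)
  · have := e' i
    simp only [y, if_neg hi] at this
    by_cases h3 : 0 < g i (vv b)
    · exact Or.inl h3
    · rw [H.GG_rb_eq_zero h3] at this
      exact Or.inr (H.FF_pos.1 (by linarith))

theorem Cover.not_maximal_e0 (H : Cover g) {t : Finset (Fin 10)} (ht : Odd t.card)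
    (h0 : ∀ i ∈ t, 0 < g i e0) : ∃ j ∉ t, Nerve g (insert j t) := by
  have hne : t.Nonempty := Finset.card_pos.1 ht.pos
  by_contra hmax
  push Not at hmax
  obtain ⟨c, hc, h⟩ := H.theta_odd hne h0
  let y : E10 := fun i => if i ∈ t then c / 2 else 0
  have hy : ‖y‖ < c := by
    refine lt_of_le_of_lt ((pi_norm_le_iff_of_nonneg (half_pos hc).le).2 fun i => ?_)
      (half_lt_self hc)
    simp only [y]
    split_ifs <;> simp [abs_of_pos hc, (half_pos hc).le]
  obtain ⟨h1, h2⟩ := h y hy fun i hi => by simp [y, hi, hc]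
  let e : E10 := ![1, 1, 1, 1, -1, -1, -1, -1, -1, -1]
  let e' : E10 := fun i => if i ∈ t then 1 else -1
  have hrb : ∀ b, rb (sgn e b) = rb b := fun b => by
    ext i
    fin_cases i <;> simp [rb, sgn_apply, e]
  have hnb : ∀ b, nb (sgn e b) = -nb b := fun b => by
    ext i
    fin_cases i <;> simp [nb, sgn_apply, e] <;> ring
  have hvv : ∀ b, vv (sgn e b) = vv b := fun b => by
    ext i
    fin_cases i <;> simp [vv, sgn_apply, e]
  have hz : ∀ j ∉ t, ∀ b ∈ closure (Om g t), GG g j (mat (rb b)) = 0 := by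
    intro j hj b hb
    refine closure_minimal (t := {b : E10 | GG g j (mat (rb b)) = 0}) (fun b hb => ?_)
      (isClosed_eq ((H.continuous_GG j).comp (continuous_mat.comp contDiff_rb.continuous))
        continuous_const) hb
    refine H.GG_rb_eq_zero fun h3 => hmax j hj ⟨vv b, vv_ne_zero b, fun i hi => ?_⟩
    rcases Finset.mem_insert.1 hi with rfl | hi
    · exact h3
    · exact hb.2.1 i hi
  have hs := deg_sign (H.continuous_Th.sub continuous_const) (H.isOpen_Om t)
    (H.isBounded_Om hne h0)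
    (fun b hb e => hb.2 (by rw [(H.isOpen_Om t).interior_eq]; exact h1 b hb.1 e))
    (e := e) (e' := e') (fun i => by fin_cases i <;> simp [e])
    (fun i => by simp only [e']; split_ifs <;> simp)
    (fun b hb => ⟨by simpa [sgn_apply, e] using hb.1, by rw [hvv]; exact hb.2.1,
      by simpa [rho, sgn_apply, e] using hb.2.2⟩)
    (fun b hb => by
      ext i
      simp only [Pi.sub_apply, sgn_apply, Th, hrb, hnb, FF_neg, Pi.neg_apply, e', y]
      split_ifs with hi
      · rw [(H.closure_Om hb.1).2.2 i hi]; ring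
      · rw [hz i hi b hb.1]; ring)
  have p1 : ∏ i, e i = 1 := by simp [e, Fin.prod_univ_succ]
  have p2 : ∏ i, e' i = -1 := by
    simp only [e']
    rw [Finset.prod_ite, Finset.prod_const_one, one_mul, Finset.prod_const]
    refine Odd.neg_one_pow ?_
    have : (Finset.univ.filter fun i => i ∉ t).card + t.card = 10 := by
      rw [show (Finset.univ.filter fun i => i ∉ t) = tᶜ by ext; simp, Finset.card_compl]
      have := t.card_le_univ
      simp at this ⊢
      omega
    obtain ⟨m, hm⟩ := ht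
    exact ⟨4 - m, by omega⟩
  rw [p1, p2] at hs
  exact h2.ne_zero (by
    change deg (Th g - fun _ => y) (Om g t) = 0
    linarith)

def quat (x : V4) : M4 :=
  !![x 0, -x 1, -x 2, -x 3; x 1, x 0, -x 3, x 2; x 2, x 3, x 0, -x 1; x 3, -x 2, x 1, x 0]

theorem quat_dot (x v w : V4) : (quat x *ᵥ v) ⬝ᵥ (quat x *ᵥ w) = (x ⬝ᵥ x) * (v ⬝ᵥ w) := by
  simp [quat, mulVec, dotProduct, Fin.sum_univ_four]
  ring

theorem quat_e0 (x : V4) : quat x *ᵥ e0 = x := by
  ext i
  fin_cases i <;> simp [quat, e0, mulVec, dotProduct, Fin.sum_univ_four]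

theorem quat_ne_zero {x v : V4} (hx : x ≠ 0) (hv : v ≠ 0) : quat x *ᵥ v ≠ 0 := by
  intro h
  have := quat_dot x v v
  rw [h, zero_dotProduct] at this
  exact (mul_pos (dot_self_pos hx) (dot_self_pos hv)).ne this

theorem Cover.rotate (H : Cover g) {x : V4} (hx : x ≠ 0) :
    Cover fun i v => g i (quat x *ᵥ v) where
  cont i := (H.cont i).comp (continuous_const.matrix_mulVec continuous_id)
  nonneg i v := H.nonneg _ _
  zero i := by simp [H.zero]
  smul i v c hc h := by rw [mulVec_smul]; exact H.smul i _ c hc h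
  cov v hv := H.cov _ (quat_ne_zero hx hv)
  quant := by
    obtain ⟨C, hC⟩ := H.quant
    refine ⟨C, fun i v w hv hw => ?_⟩
    have := hC i _ _ hv hw
    rw [quat_dot, quat_dot, quat_dot] at this
    have hp := dot_self_pos hx
    have h2 : (x ⬝ᵥ x) ^ 2 * ((v ⬝ᵥ v) * (w ⬝ᵥ w)) ≤ (x ⬝ᵥ x) ^ 2 * (C * (v ⬝ᵥ w) ^ 2) := by
      nlinarith
    exact le_of_mul_le_mul_left h2 (by positivity)

theorem nerve_of_rotate {x : V4} (hx : x ≠ 0) {t : Finset (Fin 10)}
    (h : Nerve (fun i v => g i (quat x *ᵥ v)) t) : Nerve g t := by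
  obtain ⟨v, hv, h⟩ := h
  exact ⟨_, quat_ne_zero hx hv, h⟩

theorem nerve_rotate {x : V4} (hx : x ≠ 0) {t : Finset (Fin 10)} (h : Nerve g t) :
    Nerve (fun i v => g i (quat x *ᵥ v)) t := by
  obtain ⟨v, hv, h⟩ := h
  have hinj : Function.Injective (Matrix.mulVecLin (quat x)) := by
    rw [injective_iff_map_eq_zero]
    intro w hw
    by_contra hne
    exact quat_ne_zero hx hne hw
  obtain ⟨w, hw⟩ := LinearMap.injective_iff_surjective.1 hinj v
  have hw' : quat x *ᵥ w = v := hw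
  refine ⟨w, fun h0 => hv (by rw [← hw', h0, mulVec_zero]), fun i hi => ?_⟩
  simp only [hw']
  exact h i hi

theorem Cover.not_maximal (H : Cover g) {t : Finset (Fin 10)} (ht : Odd t.card)
    (h : Nerve g t) : ∃ j ∉ t, Nerve g (insert j t) := by
  obtain ⟨x, hx, h⟩ := h
  obtain ⟨j, hj, h2⟩ := (H.rotate hx).not_maximal_e0 ht (by simpa [quat_e0] using h)
  exact ⟨j, hj, nerve_of_rotate hx h2⟩

theorem Cover.nerve_of_line (H : Cover g) {P : M4}
    (hP : Module.finrank ℝ (LinearMap.range (Matrix.mulVecLin P)) ≤ 1) {s : Finset (Fin 10)}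
    (hs : ∀ i ∈ s, 0 < GG g i P) : Nerve g s := by
  obtain ⟨p, hp⟩ := finrank_le_one_iff.1 hP
  have key : ∀ i ∈ s, 0 < g i p := by
    intro i hi
    obtain ⟨z, hz⟩ := H.GG_pos.1 (hs i hi)
    obtain ⟨c, hc⟩ := hp ⟨P *ᵥ z, z, rfl⟩
    have hc' : c • (p : V4) = P *ᵥ z := congrArg Subtype.val hc
    have hc0 : c ≠ 0 := fun h => H.ne_zero hz (by rw [← hc', h, zero_smul])
    have := H.smul i _ _ (inv_ne_zero hc0) hz
    rwa [← hc', smul_smul, inv_mul_cancel₀ hc0, one_smul] at this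
  rcases s.eq_empty_or_nonempty with rfl | ⟨i, hi⟩
  · exact ⟨e0, fun h => by simpa [e0] using congrFun h 0, by simp⟩
  · exact ⟨p, H.ne_zero (key i hi), key⟩

theorem finrank_le_three {P Q : M4} (hP : P.PosSemidef) (hQ : Q.PosSemidef) (h : P * Q = 0)
    {v : V4} (hv : v ≠ 0) (h1 : P *ᵥ v = 0) (h2 : Q *ᵥ v = 0) :
    Module.finrank ℝ (LinearMap.range (Matrix.mulVecLin P)) ≤ 1 ∨
      Module.finrank ℝ (LinearMap.range (Matrix.mulVecLin Q)) ≤ 1 := by
  have e := Submodule.finrank_sup_add_finrank_inf_eq (LinearMap.range (Matrix.mulVecLin P))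
    (LinearMap.range (Matrix.mulVecLin Q))
  have hinf : LinearMap.range (Matrix.mulVecLin P) ⊓ LinearMap.range (Matrix.mulVecLin Q) = ⊥ := by
    rw [eq_bot_iff]
    rintro u ⟨⟨z, hz⟩, ⟨w, hw⟩⟩
    have := dot_eq_zero hP h z w
    rw [show P *ᵥ z = u from hz, show Q *ᵥ w = u from hw] at this
    exact dotProduct_self_eq_zero.1 this
  have hsup : LinearMap.range (Matrix.mulVecLin P) ⊔ LinearMap.range (Matrix.mulVecLin Q) ≠ ⊤ := by
    intro htop
    have : v ∈ LinearMap.range (Matrix.mulVecLin P) ⊔ LinearMap.range (Matrix.mulVecLin Q) := by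
      rw [htop]; trivial
    obtain ⟨_, ⟨z, rfl⟩, _, ⟨w, rfl⟩, e⟩ := Submodule.mem_sup.1 this
    have h3 : v ⬝ᵥ v = 0 := by
      nth_rewrite 1 [← e]
      simp only [mulVecLin_apply, add_dotProduct, dot_symm hP, dot_symm hQ, h1, h2,
        dotProduct_zero, add_zero]
    exact (dot_self_pos hv).ne' h3
  have := Submodule.finrank_lt hsup
  rw [hinf, finrank_bot] at e
  simp only [Module.finrank_fintype_fun_eq_card, Fintype.card_fin] at this
  omega

/-- The main existence statement for the nerve. -/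
theorem Cover.nerve_split (H : Cover g) {t : Finset (Fin 10)} (ht : t.Nonempty) (h : Nerve g t)
    {J : Finset (Fin 10)} (hJ : ∀ i ∈ t, i ∉ J) (hJne : J.Nonempty) :
    ∃ u : Finset (Fin 10), t ⊆ u ∧ (∀ i ∈ u, i ∉ J) ∧ Nerve g u ∧ ¬ Nerve g (u ∪ J) ∧
      (Nerve g J ∨ Nerve g (u ∪ J)ᶜ) := by
  obtain ⟨x, hx, h⟩ := h
  have H' := H.rotate hx
  obtain ⟨v, P, Q, hv, hP, hQ, hPQ, hPv, hQv, h1, h2, h3⟩ :=
    H'.exists_pattern_e0 ht (by simpa [quat_e0] using h) J hJ
  set g' : Fin 10 → V4 → ℝ := fun i v => g i (quat x *ᵥ v) with hg'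
  let u : Finset (Fin 10) := Finset.univ.filter fun i => 0 < g' i v
  have hu : ∀ i, i ∈ u ↔ 0 < g' i v := fun i => by simp [u]
  have h4 : ∀ i ∈ (u ∪ J)ᶜ, 0 < GG g' i P := by
    intro i hi
    rw [Finset.mem_compl, Finset.mem_union, not_or] at hi
    exact (h3 i hi.2).resolve_left fun h => hi.1 ((hu i).2 h)
  refine ⟨u, fun i hi => (hu i).2 (h1 i hi), fun i hi hiJ => ?_,
    nerve_of_rotate hx ⟨v, hv, fun i hi => (hu i).1 hi⟩, fun hn => ?_, ?_⟩
  · exact (h2 i hiJ).ne' (H'.GG_eq_zero hQ hQv ((hu i).1 hi))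
  · obtain ⟨z, -, hz⟩ := nerve_rotate hx hn
    obtain ⟨j, hj⟩ := hJne
    obtain ⟨z', hz'⟩ := H'.GG_pos.1 (h2 j hj)
    have hq := H'.ne_zero hz'
    have hqv : (Q *ᵥ z') ⬝ᵥ v = 0 := by rw [dot_symm hQ, hQv, dotProduct_zero]
    have hPq : P *ᵥ (Q *ᵥ z') = 0 := by rw [mulVec_mulVec, hPQ, zero_mulVec]
    obtain ⟨w, hw0, hw1, hw2⟩ : ∃ w : V4, w ≠ 0 ∧ P *ᵥ w = 0 ∧ z ⬝ᵥ w = 0 := by
      by_cases hzv : z ⬝ᵥ v = 0
      · exact ⟨v, hv, hPv, hzv⟩
      · refine ⟨(z ⬝ᵥ (Q *ᵥ z')) • v - (z ⬝ᵥ v) • (Q *ᵥ z'), fun h0 => ?_, ?_, ?_⟩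
        · have := congrArg (fun w => (Q *ᵥ z') ⬝ᵥ w) h0
          simp only [dotProduct_sub, dotProduct_smul, hqv, smul_eq_mul, mul_zero, zero_sub,
            dotProduct_zero, neg_eq_zero, mul_eq_zero] at this
          exact this.elim hzv (dot_self_pos hq).ne'
        · rw [mulVec_sub, mulVec_smul, mulVec_smul, hPv, hPq]; simp
        · simp only [dotProduct_sub, dotProduct_smul, smul_eq_mul]; ring
    obtain ⟨i, hi⟩ := H'.cov w hw0
    by_cases hi2 : i ∈ u ∪ J
    · exact H'.orth (hz i hi2) hi hw2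
    · exact (h4 i (Finset.mem_compl.2 hi2)).ne' (H'.GG_eq_zero hP hw1 hi)
  · rcases finrank_le_three hP hQ hPQ hv hPv hQv with h5 | h5
    · exact Or.inr (nerve_of_rotate hx (H'.nerve_of_line h5 h4))
    · exact Or.inl (nerve_of_rotate hx (H'.nerve_of_line h5 h2))

end Vale.Agent.P052
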