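import Mathlib.Analysis.Matrix.Order
import Mathlib.Analysis.SpecialFunctions.ContinuousFunctionalCalculus.PosPart.Basic
import Mathlib.Topology.Instances.Matrix

/-! The positive part of a real symmetric matrix: uniqueness and continuity. -/

open Matrix Filter Topology
open scoped MatrixOrder

namespace Vale.Agent.P052

abbrev M4 := Matrix (Fin 4) (Fin 4) ℝ

theorem exists_decomp {A : M4} (hA : A.IsHermitian) :
    ∃ P : M4, P.PosSemidef ∧ (P - A).PosSemidef ∧ P * (P - A) = 0 := by
  have h := CFC.posPart_sub_negPart A hA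
  have e : A⁺ - A = A⁻ := by
    nth_rewrite 2 [← h]
    abel
  refine ⟨A⁺, (CFC.posPart_nonneg A).posSemidef, ?_, ?_⟩
  · rw [e]; exact (CFC.negPart_nonneg A).posSemidef
  · rw [e]; exact CFC.posPart_mul_negPart A

def ip (A B : M4) : ℝ := ∑ i, ∑ j, A i j * B i j

theorem symm_of_psd {P : M4} (hP : P.PosSemidef) (i j : Fin 4) : P i j = P j i := by
  have := hP.isHermitian.apply j i
  simpa using this

theorem ip_nonneg {P Q : M4} (hP : P.PosSemidef) (hQ : Q.PosSemidef) : 0 ≤ ip P Q := by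
  obtain ⟨B, hB⟩ := CStarAlgebra.nonneg_iff_eq_star_mul_self.1 hP.nonneg
  have e : ip P Q = ∑ k, star (B k) ⬝ᵥ (Q *ᵥ B k) := by
    simp only [ip, hB, mul_apply, star_apply, dotProduct, mulVec, star_trivial, Finset.sum_mul,
      Finset.mul_sum, Pi.star_apply]
    rw [Finset.sum_comm]
    conv_rhs => rw [Finset.sum_comm]
    rw [Finset.sum_comm]
    refine Finset.sum_congr rfl fun i _ => ?_
    rw [Finset.sum_comm]
    refine Finset.sum_congr rfl fun j _ => Finset.sum_congr rfl fun k _ => ?_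
    ring
  rw [e]
  exact Finset.sum_nonneg fun k _ => hQ.dotProduct_mulVec_nonneg _

theorem ip_eq_zero {P Q : M4} (hQ : Q.PosSemidef) (h : P * Q = 0) : ip P Q = 0 := by
  refine Finset.sum_eq_zero fun i _ => ?_
  have := congrFun (congrFun h i) i
  rw [mul_apply] at this
  rw [← show ∑ j, P i j * Q j i = 0 from this]
  exact Finset.sum_congr rfl fun j _ => by rw [symm_of_psd hQ i j]

theorem decomp_ineq {P Q P' Q' : M4} (hP : P.PosSemidef) (hQ : Q.PosSemidef)
    (hP' : P'.PosSemidef) (hQ' : Q'.PosSemidef) (h : P * Q = 0) (h' : P' * Q' = 0) :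
    ip (P - P') (P - P') ≤ ip (P - Q - (P' - Q')) (P - Q - (P' - Q')) := by
  have h1 := ip_nonneg hP hQ'
  have h2 := ip_nonneg hP' hQ
  have h3 := ip_eq_zero hQ h
  have h4 := ip_eq_zero hQ' h'
  have h5 : 0 ≤ ip (Q - Q') (Q - Q') :=
    Finset.sum_nonneg fun i _ => Finset.sum_nonneg fun j _ => mul_self_nonneg _
  have e : ip (P - Q - (P' - Q')) (P - Q - (P' - Q')) = ip (P - P') (P - P') +
      ip (Q - Q') (Q - Q') - 2 * ip P Q - 2 * ip P' Q' + 2 * ip P Q' + 2 * ip P' Q := by
    simp only [ip, Finset.mul_sum, ← Finset.sum_add_distrib, ← Finset.sum_sub_distrib, Matrix.sub_apply]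
    refine Finset.sum_congr rfl fun i _ => Finset.sum_congr rfl fun j _ => ?_
    ring
  linarith

theorem sq_le_ip (A : M4) (i j : Fin 4) : A i j * A i j ≤ ip A A :=
  (Finset.single_le_sum (f := fun k => A i k * A i k) (fun _ _ => mul_self_nonneg _)
    (Finset.mem_univ j)).trans
    (Finset.single_le_sum (f := fun l => ∑ k, A l k * A l k)
      (fun _ _ => Finset.sum_nonneg fun _ _ => mul_self_nonneg _) (Finset.mem_univ i))

open Classical in
/-- The positive part. -/
noncomputable def pos (A : M4) : M4 := if h : A.IsHermitian then (exists_decomp h).choose else 0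

theorem pos_spec {A : M4} (hA : A.IsHermitian) :
    (pos A).PosSemidef ∧ (pos A - A).PosSemidef ∧ pos A * (pos A - A) = 0 := by
  rw [pos, dif_pos hA]
  exact (exists_decomp hA).choose_spec

theorem pos_ineq {A A' : M4} (hA : A.IsHermitian) (hA' : A'.IsHermitian) :
    ip (pos A - pos A') (pos A - pos A') ≤ ip (A - A') (A - A') := by
  obtain ⟨a, b, c⟩ := pos_spec hA
  obtain ⟨a', b', c'⟩ := pos_spec hA'
  simpa using decomp_ineq a b a' b' c c'

theorem pos_unique {P Q : M4} (hP : P.PosSemidef) (hQ : Q.PosSemidef) (h : P * Q = 0) :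
    pos (P - Q) = P := by
  obtain ⟨a, b, c⟩ := pos_spec (hP.isHermitian.sub hQ.isHermitian)
  have := decomp_ineq a b hP hQ c h
  ext i j
  have h2 := sq_le_ip (pos (P - Q) - P) i j
  have h3 : ip (pos (P - Q) - (pos (P - Q) - (P - Q)) - (P - Q))
      (pos (P - Q) - (pos (P - Q) - (P - Q)) - (P - Q)) = 0 := by simp [ip]
  have h4 : (pos (P - Q) - P) i j = 0 := by nlinarith
  exact sub_eq_zero.1 h4

theorem mul_comm_zero {P Q : M4} (hP : P.PosSemidef) (hQ : Q.PosSemidef) (h : P * Q = 0) :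
    Q * P = 0 := by
  have := congrArg conjTranspose h
  rwa [conjTranspose_mul, hP.isHermitian.eq, hQ.isHermitian.eq, conjTranspose_zero] at this

theorem pos_neg {A : M4} (hA : A.IsHermitian) : pos (-A) = pos A - A := by
  obtain ⟨a, b, c⟩ := pos_spec hA
  have := pos_unique b a (mul_comm_zero a b c)
  rwa [sub_sub_cancel_left] at this

theorem continuous_pos {X : Type} [TopologicalSpace X] {A : X → M4} (hc : Continuous A)
    (hA : ∀ x, (A x).IsHermitian) : Continuous fun x => pos (A x) := by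
  refine continuous_matrix fun i j => continuous_iff_continuousAt.2 fun x => ?_
  have h1 : Continuous fun y => √(ip (A y - A x) (A y - A x)) := by
    unfold ip
    simp only [Matrix.sub_apply]
    fun_prop
  have h2 : Tendsto (fun y => √(ip (A y - A x) (A y - A x))) (𝓝 x) (𝓝 0) := by
    have := h1.tendsto x
    simpa [ip] using this
  rw [ContinuousAt, tendsto_iff_norm_sub_tendsto_zero]
  refine squeeze_zero (fun _ => norm_nonneg _) (fun y => ?_) h2
  refine Real.abs_le_sqrt ?_
  rw [sq]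
  exact (sq_le_ip (pos (A y) - pos (A x)) i j).trans (pos_ineq (hA y) (hA x))

theorem pos_zero : pos (0 : M4) = 0 := by
  simpa using pos_unique (P := 0) (Q := 0) PosSemidef.zero PosSemidef.zero (by simp)

theorem pos_sq_le {A : M4} (hA : A.IsHermitian) (i j : Fin 4) :
    pos A i j * pos A i j ≤ ip A A := by
  have := pos_ineq hA isHermitian_zero
  rw [pos_zero, sub_zero, sub_zero] at this
  exact (sq_le_ip _ i j).trans this

theorem dot_symm {P : M4} (hP : P.PosSemidef) (z w : Fin 4 → ℝ) :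
    (P *ᵥ z) ⬝ᵥ w = z ⬝ᵥ (P *ᵥ w) := by
  rw [dotProduct_mulVec, ← mulVec_transpose]
  congr 2
  ext i j
  exact symm_of_psd hP i j

theorem dot_eq_zero {P Q : M4} (hP : P.PosSemidef) (h : P * Q = 0) (z w : Fin 4 → ℝ) :
    (P *ᵥ z) ⬝ᵥ (Q *ᵥ w) = 0 := by
  rw [dot_symm hP, mulVec_mulVec, h, zero_mulVec, dotProduct_zero]

theorem pos_mulVec_eq_zero {A : M4} (hA : A.IsHermitian) {v : Fin 4 → ℝ} (h : A *ᵥ v = 0) :
    pos A *ᵥ v = 0 := by
  obtain ⟨a, -, c⟩ := pos_spec hA
  have := dot_eq_zero a c v v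
  rw [sub_mulVec, h, sub_zero] at this
  exact dotProduct_self_eq_zero.1 this

end Vale.Agent.P052
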