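import Vale.Agent.P052.Cover

/-! The localised map near a face of the nerve, and its degree. -/

open Matrix Filter Topology Set Vale.Agent.Lib.Degree

namespace Vale.Agent.P052

variable {g : Fin 10 → V4 → ℝ}

def vv (b : E10) : V4 := ![1, b 1, b 2, b 3]

def rb (b : E10) : E10 :=
  ![b 0, b 0 * b 1, b 0 * b 2, b 0 * b 3, b 0 * b 1 * b 1, b 0 * b 1 * b 2, b 0 * b 1 * b 3,
    b 0 * b 2 * b 2, b 0 * b 2 * b 3, b 0 * b 3 * b 3]

def nb (b : E10) : E10 :=
  ![b 1 * (b 4 * b 1 + b 5 * b 2 + b 6 * b 3) + b 2 * (b 5 * b 1 + b 7 * b 2 + b 8 * b 3) +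
      b 3 * (b 6 * b 1 + b 8 * b 2 + b 9 * b 3),
    -(b 4 * b 1 + b 5 * b 2 + b 6 * b 3), -(b 5 * b 1 + b 7 * b 2 + b 8 * b 3),
    -(b 6 * b 1 + b 8 * b 2 + b 9 * b 3), b 4, b 5, b 6, b 7, b 8, b 9]

def Psi (b : E10) : E10 := rb b + nb b

def rho (b : E10) : ℝ := b 0 ^ 2 + b 4 ^ 2 + b 5 ^ 2 + b 6 ^ 2 + b 7 ^ 2 + b 8 ^ 2 + b 9 ^ 2

def e0 : V4 := ![1, 0, 0, 0]

theorem contDiff_rb : ContDiff ℝ 1 rb := by
  refine contDiff_pi.2 fun i => ?_
  fin_cases i <;> simp [rb] <;> fun_prop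

theorem contDiff_nb : ContDiff ℝ 1 nb := by
  refine contDiff_pi.2 fun i => ?_
  fin_cases i <;> simp [nb] <;> fun_prop

theorem contDiff_Psi : ContDiff ℝ 1 Psi := contDiff_rb.add contDiff_nb

theorem continuous_vv : Continuous vv := by
  refine continuous_pi fun i => ?_
  fin_cases i <;> simp [vv] <;> fun_prop

theorem continuous_rho : Continuous rho := by unfold rho; fun_prop

theorem vv_ne_zero (b : E10) : vv b ≠ 0 := fun h => by simpa [vv] using congrFun h 0

theorem nb_mulVec (b : E10) : mat (nb b) *ᵥ vv b = 0 := by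
  ext i
  fin_cases i <;> simp [mat, nb, vv, mulVec, dotProduct, Fin.sum_univ_four] <;> ring

theorem rb_mulVec (b : E10) (z : V4) : mat (rb b) *ᵥ z = (b 0 * (vv b ⬝ᵥ z)) • vv b := by
  ext i
  fin_cases i <;> simp [mat, rb, vv, mulVec, dotProduct, Fin.sum_univ_four] <;> ring

theorem rb_psd {b : E10} (h : 0 ≤ b 0) : (mat (rb b)).PosSemidef := by
  refine PosSemidef.of_dotProduct_mulVec_nonneg (mat_herm _) fun z => ?_
  rw [rb_mulVec, star_trivial, dotProduct_smul, smul_eq_mul, dotProduct_comm z, mul_assoc]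
  exact mul_nonneg h (mul_self_nonneg _)

theorem Cover.GG_rb (H : Cover g) {b : E10} {i : Fin 10} :
    0 < GG g i (mat (rb b)) ↔ b 0 ≠ 0 ∧ 0 < g i (vv b) := by
  rw [H.GG_pos]
  constructor
  · rintro ⟨z, hz⟩
    rw [rb_mulVec] at hz
    have hc : b 0 * (vv b ⬝ᵥ z) ≠ 0 := fun h => H.ne_zero hz (by rw [h, zero_smul])
    refine ⟨left_ne_zero_of_mul hc, ?_⟩
    have := H.smul i _ _ (inv_ne_zero hc) hz
    rwa [smul_smul, inv_mul_cancel₀ hc, one_smul] at this
  · rintro ⟨h0, h⟩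
    refine ⟨vv b, ?_⟩
    rw [rb_mulVec]
    exact H.smul i _ _ (mul_ne_zero h0 (dot_self_pos (vv_ne_zero b)).ne') h

noncomputable def Th (g : Fin 10 → V4 → ℝ) (b : E10) : E10 :=
  fun i => GG g i (mat (rb b)) + FF g (nb b) i

theorem Cover.continuous_Th (H : Cover g) : Continuous (Th g) :=
  continuous_pi fun i => ((H.continuous_GG i).comp (continuous_mat.comp contDiff_rb.continuous)).add
    ((continuous_apply i).comp (H.continuous_FF.comp contDiff_nb.continuous))

theorem Cover.FF_nb_eq_zero (H : Cover g) {b : E10} {i : Fin 10} (h : 0 < g i (vv b)) :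
    FF g (nb b) i = 0 := by
  rw [FF, H.GG_eq_zero (pp_psd _) (pp_mulVec (nb_mulVec b)) h,
    H.GG_eq_zero (pp_psd _) (pp_neg_mulVec (nb_mulVec b)) h, sub_zero]

theorem Cover.GG_rb_eq_zero (H : Cover g) {b : E10} {i : Fin 10} (h : ¬ 0 < g i (vv b)) :
    GG g i (mat (rb b)) = 0 :=
  le_antisymm (not_lt.1 fun h' => h (H.GG_rb.1 h').2) (H.GG_nonneg _ _)

theorem Cover.rho_eq_zero (H : Cover g) {b : E10} (h : Th g b = 0) : rho b = 0 := by
  have h1 : ∀ i, FF g (nb b) i = 0 := fun i => by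
    by_cases hi : 0 < g i (vv b)
    · exact H.FF_nb_eq_zero hi
    · have := congrFun h i
      simpa [Th, H.GG_rb_eq_zero hi] using this
  have h2 : nb b = 0 := H.eq_zero_of_FF (funext h1)
  have h3 : b 0 = 0 := by
    by_contra h0
    obtain ⟨i, hi⟩ := H.cov _ (vv_ne_zero b)
    have := congrFun h i
    have h4 := H.GG_rb.2 ⟨h0, hi⟩
    simp only [Th, h1, add_zero, Pi.zero_apply] at this
    linarith
  have e := fun k => congrFun h2 k
  have e4 : b 4 = 0 := by simpa [nb] using e 4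
  have e5 : b 5 = 0 := by simpa [nb] using e 5
  have e6 : b 6 = 0 := by simpa [nb] using e 6
  have e7 : b 7 = 0 := by simpa [nb] using e 7
  have e8 : b 8 = 0 := by simpa [nb] using e 8
  have e9 : b 9 = 0 := by simpa [nb] using e 9
  simp [rho, h3, e4, e5, e6, e7, e8, e9]

def Om (g : Fin 10 → V4 → ℝ) (t : Finset (Fin 10)) : Set E10 :=
  {b | 0 < b 0 ∧ (∀ i ∈ t, 0 < g i (vv b)) ∧ rho b < 1}

theorem Cover.isOpen_Om (H : Cover g) (t : Finset (Fin 10)) : IsOpen (Om g t) := by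
  have h : IsOpen {b : E10 | ∀ i ∈ t, 0 < g i (vv b)} := by
    rw [show {b : E10 | ∀ i ∈ t, 0 < g i (vv b)} = ⋂ i ∈ t, {b | 0 < g i (vv b)} by ext; simp]
    exact isOpen_biInter_finset fun i _ =>
      isOpen_lt continuous_const ((H.cont i).comp continuous_vv)
  exact (isOpen_lt continuous_const (continuous_apply 0)).inter
    (h.inter (isOpen_lt continuous_rho continuous_const))

theorem Cover.isBounded_Om (H : Cover g) {t : Finset (Fin 10)} (ht : t.Nonempty)
    (h0 : ∀ i ∈ t, 0 < g i e0) : Bornology.IsBounded (Om g t) := by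
  obtain ⟨C, hC⟩ := H.quant
  obtain ⟨i, hi⟩ := ht
  refine (Metric.isBounded_closedBall (x := (0 : E10)) (r := |C| + 1)).subset fun b hb => ?_
  have h1 := hC i _ _ (h0 i hi) (hb.2.1 i hi)
  simp [e0, vv, dotProduct, Fin.sum_univ_four] at h1
  have h2 := hb.2.2
  unfold rho at h2
  have hC0 := le_abs_self C
  have hC1 := abs_nonneg C
  rw [mem_closedBall_zero_iff]
  refine (pi_norm_le_iff_of_nonneg (by positivity)).2 fun k => ?_
  rw [Real.norm_eq_abs]
  have key : b k ^ 2 ≤ |C| + 1 := by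
    have s0 := sq_nonneg (b 0)
    have s1 := mul_self_nonneg (b 1)
    have s2 := mul_self_nonneg (b 2)
    have s3 := mul_self_nonneg (b 3)
    have s4 := sq_nonneg (b 4)
    have s5 := sq_nonneg (b 5)
    have s6 := sq_nonneg (b 6)
    have s7 := sq_nonneg (b 7)
    have s8 := sq_nonneg (b 8)
    have s9 := sq_nonneg (b 9)
    fin_cases k <;> simp <;> nlinarith
  rw [← sq_abs] at key
  nlinarith [abs_nonneg (b k)]

theorem Cover.closure_Om (H : Cover g) {t : Finset (Fin 10)} {b : E10} (hb : b ∈ closure (Om g t)) :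
    0 ≤ b 0 ∧ rho b ≤ 1 ∧ ∀ i ∈ t, FF g (nb b) i = 0 := by
  refine ⟨?_, ?_, fun i hi => ?_⟩
  · exact closure_minimal (t := {b : E10 | 0 ≤ b 0}) (fun b hb => hb.1.le)
      (isClosed_le continuous_const (continuous_apply 0)) hb
  · exact closure_minimal (t := {b : E10 | rho b ≤ 1}) (fun b hb => hb.2.2.le)
      (isClosed_le continuous_rho continuous_const) hb
  · exact closure_minimal (t := {b : E10 | FF g (nb b) i = 0})
      (fun b hb => H.FF_nb_eq_zero (hb.2.1 i hi))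
      (isClosed_eq ((continuous_apply i).comp (H.continuous_FF.comp contDiff_nb.continuous))
        continuous_const) hb

theorem Cover.exists_Om_lb (H : Cover g) {t : Finset (Fin 10)} (ht : t.Nonempty)
    (h0 : ∀ i ∈ t, 0 < g i e0) : ∃ c > (0 : ℝ), ∀ b ∈ closure (Om g t), ‖Th g b‖ < c →
      (∀ i ∈ t, 0 < Th g b i) → b ∈ Om g t := by
  have hK : IsCompact (closure (Om g t) ∩ {b | rho b = 1}) :=
    (H.isBounded_Om ht h0).isCompact_closure.inter_right (isClosed_eq continuous_rho continuous_const)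
  obtain ⟨c, hc, h⟩ := hK.exists_forall_le' (f := fun b => ‖Th g b‖) (a := 0)
    H.continuous_Th.norm.continuousOn (fun b hb => norm_pos_iff.2 fun h0 => by
      have := hb.2
      rw [mem_ofPred_eq, H.rho_eq_zero h0] at this
      exact zero_ne_one this)
  refine ⟨c, hc, fun b hb h1 h2 => ?_⟩
  obtain ⟨a1, a2, a3⟩ := H.closure_Om hb
  have h3 : ∀ i ∈ t, b 0 ≠ 0 ∧ 0 < g i (vv b) := fun i hi => H.GG_rb.1 (by
    have := h2 i hi
    rwa [Th, a3 i hi, add_zero] at this)
  obtain ⟨i, hi⟩ := ht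
  refine ⟨lt_of_le_of_ne a1 (h3 i hi).1.symm, fun j hj => (h3 j hj).2, lt_of_le_of_ne a2 fun e => ?_⟩
  exact absurd (h b ⟨hb, e⟩) (not_le.2 h1)

theorem pp_Psi {b : E10} (h0 : 0 ≤ b 0) (h : pp (nb b) = 0) :
    pp (Psi b) = mat (rb b) ∧ pp (-Psi b) = pp (-nb b) := by
  have h1 : pp (-nb b) = -mat (nb b) := by rw [pp_neg, h, zero_sub]
  have h2 : mat (rb b) * pp (-nb b) = 0 := by
    refine mul_comm_zero (pp_psd _) (rb_psd h0) ?_
    ext i j
    have := congrFun (pp_neg_mulVec (nb_mulVec b)) i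
    have e : (pp (-nb b) * mat (rb b)) i j =
        (pp (-nb b) *ᵥ (mat (rb b) *ᵥ Pi.single j 1)) i := by
      rw [mulVec_mulVec]; simp
    rw [e, rb_mulVec, mulVec_smul, Pi.smul_apply, this]
    simp
  have h3 : pp (Psi b) = mat (rb b) := by
    have := pos_unique (rb_psd h0) (pp_psd (-nb b)) h2
    rwa [h1, sub_neg_eq_add, ← mat_add] at this
  refine ⟨h3, ?_⟩
  rw [pp_neg, h3, h1, Psi, mat_add]
  abel

theorem Cover.Th_eq (H : Cover g) {b : E10} (h0 : 0 ≤ b 0) (h : pp (nb b) = 0) :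
    Th g b = FF g (Psi b) := by
  obtain ⟨h1, h2⟩ := pp_Psi h0 h
  ext i
  simp only [Th, FF, h1, h2, h, H.GG_zero]
  ring

theorem Psi_inj {b b' : E10} (h0 : 0 < b 0) (h0' : 0 < b' 0) (h : pp (nb b) = 0)
    (h' : pp (nb b') = 0) (e : Psi b = Psi b') : b = b' := by
  have h1 : rb b = rb b' := mat_inj (by rw [← (pp_Psi h0.le h).1, ← (pp_Psi h0'.le h').1, e])
  have h2 : nb b = nb b' := by
    unfold Psi at e
    rwa [h1, add_right_inj] at e
  have a0 : b 0 = b' 0 := by simpa [rb] using congrFun h1 0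
  have a1 : b 0 * b 1 = b' 0 * b' 1 := by simpa [rb] using congrFun h1 1
  have a2 : b 0 * b 2 = b' 0 * b' 2 := by simpa [rb] using congrFun h1 2
  have a3 : b 0 * b 3 = b' 0 * b' 3 := by simpa [rb] using congrFun h1 3
  rw [← a0] at a1 a2 a3
  ext k
  fin_cases k
  · exact a0
  · exact mul_left_cancel₀ h0.ne' a1
  · exact mul_left_cancel₀ h0.ne' a2
  · exact mul_left_cancel₀ h0.ne' a3
  · simpa [nb] using congrFun h2 4
  · simpa [nb] using congrFun h2 5
  · simpa [nb] using congrFun h2 6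
  · simpa [nb] using congrFun h2 7
  · simpa [nb] using congrFun h2 8
  · simpa [nb] using congrFun h2 9

/-- Every matrix whose sign pattern is positive exactly on `t` lies in the chart. -/
theorem Cover.exists_chart (H : Cover g) {t : Finset (Fin 10)} (ht : t.Nonempty)
    (h0 : ∀ i ∈ t, 0 < g i e0) {a : E10} (ha : ‖a‖ ≤ 1 / 16) (hp : ∀ i ∈ t, 0 < FF g a i)
    (hn : ∀ i ∉ t, FF g a i < 0) :
    ∃ b ∈ Om g t, pp (-nb b) = pp (-a) ∧ Psi b = a := by
  set P := pp a with hP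
  set Q := pp (-a) with hQ
  have hPs := symm_of_psd (pp_psd a)
  have hQs := symm_of_psd (pp_psd (-a))
  rw [← hP] at hPs
  rw [← hQ] at hQs
  have hker : ∀ z, (P *ᵥ z) 0 = 0 → P *ᵥ z = 0 := by
    intro z hz
    by_contra hne
    obtain ⟨i, hi⟩ := H.cov _ hne
    have h1 := H.FF_pos.2 (H.GG_pos.2 ⟨z, hi⟩)
    have hit : i ∈ t := by
      by_contra hc
      linarith [hn i hc]
    exact H.orth (h0 i hit) hi (by simp [e0, dotProduct, Fin.sum_univ_four, hz])
  have hcol : ∀ i j, P 0 0 * P i j = P 0 j * P i 0 := by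
    intro i j
    have := congrFun (hker (P 0 0 • Pi.single j 1 - P 0 j • Pi.single 0 1)
      (by simp [mulVec_sub, mulVec_smul, mul_comm])) i
    simpa [mulVec_sub, mulVec_smul, sub_eq_zero] using this
  obtain ⟨i0, hi0⟩ := ht
  have hPne : P ≠ 0 := by
    intro h
    have := H.FF_pos.1 (hp i0 hi0)
    rw [← hP, h, H.GG_zero] at this
    exact lt_irrefl _ this
  have h00 : 0 < P 0 0 := by
    have h1 : 0 ≤ P 0 0 := (pp_psd a).diag_nonneg
    refine lt_of_le_of_ne h1 fun h2 => hPne ?_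
    have h3 : ∀ j, P 0 j = 0 := fun j => by
      have := congrFun (hker (Pi.single 0 1) (by simpa using h2.symm)) j
      rw [hPs]
      simpa using this
    ext i j
    have := congrFun (hker (Pi.single j 1) (by simpa using h3 j)) i
    simpa using this
  let b : E10 := ![P 0 0, P 1 0 / P 0 0, P 2 0 / P 0 0, P 3 0 / P 0 0,
    -Q 1 1, -Q 1 2, -Q 1 3, -Q 2 2, -Q 2 3, -Q 3 3]
  have hrb : mat (rb b) = P := by
    ext i j
    have := hcol i j
    rw [hPs 0 j] at this
    have e : P i j = P 0 0 * (P i 0 / P 0 0) * (P j 0 / P 0 0) := by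
      field_simp
      linarith
    have e1 : ∀ k, P k 0 / P 0 0 = vv b k := fun k => by
      fin_cases k <;> simp [vv, b, h00.ne']
    rw [e, e1, e1, show P 0 0 = b 0 from rfl]
    clear_value b
    fin_cases i <;> fin_cases j <;> simp [mat, rb, vv] <;> ring
  have hQv : Q *ᵥ vv b = 0 := by
    have h1 : Q * P = 0 := mul_comm_zero (pp_psd a) (pp_psd (-a)) (pp_mul a)
    have h2 : Q *ᵥ (P *ᵥ vv b) = 0 := by rw [mulVec_mulVec, h1, zero_mulVec]
    rw [← hrb, rb_mulVec, mulVec_smul] at h2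
    exact (smul_eq_zero.1 h2).resolve_left
      (mul_ne_zero h00.ne' (dot_self_pos (vv_ne_zero b)).ne')
  have hnb : mat (nb b) = -Q := by
    have q0 := congrFun hQv 0
    have q1 := congrFun hQv 1
    have q2 := congrFun hQv 2
    have q3 := congrFun hQv 3
    simp only [mulVec, dotProduct, Fin.sum_univ_four, vv, Pi.zero_apply, cons_val_zero,
      cons_val_one, cons_val] at q0 q1 q2 q3
    have b4 : b 4 = -Q 1 1 := rfl
    have b5 : b 5 = -Q 1 2 := rfl
    have b6 : b 6 = -Q 1 3 := rfl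
    have b7 : b 7 = -Q 2 2 := rfl
    have b8 : b 8 = -Q 2 3 := rfl
    have b9 : b 9 = -Q 3 3 := rfl
    have s01 := hQs 1 0
    have s02 := hQs 2 0
    have s03 := hQs 3 0
    have s12 := hQs 2 1
    have s13 := hQs 3 1
    have s23 := hQs 3 2
    rw [s01] at q1
    rw [s02, s12] at q2
    rw [s03, s13, s23] at q3
    ext i j
    fin_cases i <;> fin_cases j <;>
      simp [mat, nb, b4, b5, b6, b7, b8, b9, s01, s02, s03, s12, s13, s23] <;>
      first
        | linarith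
        | linear_combination q0 - b 1 * q1 - b 2 * q2 - b 3 * q3
  have hPsi : Psi b = a := by
    apply mat_inj
    rw [Psi, mat_add, hrb, hnb, hQ, pp_neg]
    abel
  have hsq : ∀ (x : E10) (i j : Fin 4), ‖x‖ ≤ 1 / 16 → pp x i j ^ 2 ≤ 1 / 16 := by
    intro x i j hx
    have h1 := pos_sq_le (mat_herm x) i j
    have h2 := ip_mat_le x
    have h3 := norm_nonneg x
    rw [sq, pp]
    nlinarith
  refine ⟨b, ⟨h00, fun i hi => ?_, ?_⟩, ?_, hPsi⟩
  · have := H.FF_pos.1 (hp i hi)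
    rw [← hP, ← hrb] at this
    exact (H.GG_rb.1 this).2
  · have ha' : ‖-a‖ ≤ 1 / 16 := by rwa [norm_neg]
    have c0 := hsq a 0 0 ha
    have c1 := hsq (-a) 1 1 ha'
    have c2 := hsq (-a) 1 2 ha'
    have c3 := hsq (-a) 1 3 ha'
    have c4 := hsq (-a) 2 2 ha'
    have c5 := hsq (-a) 2 3 ha'
    have c6 := hsq (-a) 3 3 ha'
    rw [← hP] at c0
    rw [← hQ] at c1 c2 c3 c4 c5 c6
    simp only [rho, b]
    simp
    linarith
  · rw [pp, mat_neg, hnb, neg_neg]
    simpa using pos_unique (pp_psd (-a)) PosSemidef.zero (mul_zero _)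

end Vale.Agent.P052
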